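import Mathlib

set_option autoImplicit false

open Finset

namespace Crest.Agent.R32

section Vec
variable {R : Type*} [CommRing R]

/-- cross product -/
def cr (x y : Fin 3 → R) : Fin 3 → R :=
  ![x 1 * y 2 - x 2 * y 1, x 2 * y 0 - x 0 * y 2, x 0 * y 1 - x 1 * y 0]

/-- dot product -/
def dt (x y : Fin 3 → R) : R := x 0 * y 0 + x 1 * y 1 + x 2 * y 2

/-- determinant with rows `x y z` -/
def d3 (x y z : Fin 3 → R) : R :=
  x 0 * y 1 * z 2 - x 0 * y 2 * z 1 - x 1 * y 0 * z 2 + x 1 * y 2 * z 0 + x 2 * y 0 * z 1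
    - x 2 * y 1 * z 0

@[simp] theorem cr_0 (x y : Fin 3 → R) : cr x y 0 = x 1 * y 2 - x 2 * y 1 := rfl
@[simp] theorem cr_1 (x y : Fin 3 → R) : cr x y 1 = x 2 * y 0 - x 0 * y 2 := rfl
@[simp] theorem cr_2 (x y : Fin 3 → R) : cr x y 2 = x 0 * y 1 - x 1 * y 0 := rfl

theorem vec3_ext {α : Type*} {x y : Fin 3 → α} (h0 : x 0 = y 0) (h1 : x 1 = y 1)
    (h2 : x 2 = y 2) : x = y := by
  funext i; fin_cases i
  · exact h0
  · exact h1
  · exact h2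

theorem vec3_eq_iff {α : Type*} {x y : Fin 3 → α} :
    x = y ↔ x 0 = y 0 ∧ x 1 = y 1 ∧ x 2 = y 2 :=
  ⟨fun h => by subst h; exact ⟨rfl, rfl, rfl⟩, fun h => vec3_ext h.1 h.2.1 h.2.2⟩

theorem vec3_zero_iff {x : Fin 3 → R} : x = 0 ↔ x 0 = 0 ∧ x 1 = 0 ∧ x 2 = 0 := vec3_eq_iff

theorem forall3 {p : Fin 3 → Prop} : (∀ i, p i) ↔ p 0 ∧ p 1 ∧ p 2 :=
  ⟨fun h => ⟨h 0, h 1, h 2⟩, fun h i => by
    fin_cases i
    · exact h.1
    · exact h.2.1
    · exact h.2.2⟩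

theorem det_eq_d3 (V : Matrix (Fin 3) (Fin 3) R) : V.det = d3 (V 0) (V 1) (V 2) := by
  rw [Matrix.det_fin_three]; rfl

theorem d3_eq_dt (x y z : Fin 3 → R) : d3 x y z = dt (cr x y) z := by
  simp [d3, dt]; ring

theorem mulVec_apply3 (V : Matrix (Fin 3) (Fin 3) R) (x : Fin 3 → R) (i : Fin 3) :
    V.mulVec x i = dt (V i) x := by
  simp [Matrix.mulVec, dotProduct, Fin.sum_univ_three, dt]

theorem mul_apply3 (V W : Matrix (Fin 3) (Fin 3) R) (i j : Fin 3) :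
    (V * W) i j = V i 0 * W 0 j + V i 1 * W 1 j + V i 2 * W 2 j := by
  simp [Matrix.mul_apply, Fin.sum_univ_three]

theorem d3_sum_left {ι : Type*} (s : Finset ι) (x : ι → Fin 3 → R) (y z : Fin 3 → R) :
    d3 (∑ r ∈ s, x r) y z = ∑ r ∈ s, d3 (x r) y z := by
  classical
  induction s using Finset.induction_on with
  | empty => simp [d3]
  | insert a s ha ih => rw [sum_insert ha, sum_insert ha, ← ih]; simp [d3]; ring

theorem d3_sum_mid {ι : Type*} (s : Finset ι) (x : Fin 3 → R) (y : ι → Fin 3 → R)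
    (z : Fin 3 → R) : d3 x (∑ r ∈ s, y r) z = ∑ r ∈ s, d3 x (y r) z := by
  classical
  induction s using Finset.induction_on with
  | empty => simp [d3]
  | insert a s ha ih => rw [sum_insert ha, sum_insert ha, ← ih]; simp [d3]; ring

theorem d3_sum_right {ι : Type*} (s : Finset ι) (x y : Fin 3 → R) (z : ι → Fin 3 → R) :
    d3 x y (∑ r ∈ s, z r) = ∑ r ∈ s, d3 x y (z r) := by
  classical
  induction s using Finset.induction_on with
  | empty => simp [d3]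
  | insert a s ha ih => rw [sum_insert ha, sum_insert ha, ← ih]; simp [d3]; ring

end Vec

/-- sup norm -/
def nrm (x : Fin 3 → ℤ) : ℤ := max |x 0| (max |x 1| |x 2|)

theorem abs_le_nrm (x : Fin 3 → ℤ) (i : Fin 3) : |x i| ≤ nrm x := by
  unfold nrm
  fin_cases i
  · exact le_max_left _ _
  · exact le_trans (le_max_left _ _) (le_max_right _ _)
  · exact le_trans (le_max_right _ _) (le_max_right _ _)

theorem nrm_le {x : Fin 3 → ℤ} {ρ : ℤ} (h : ∀ i, |x i| ≤ ρ) : nrm x ≤ ρ :=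
  max_le (h 0) (max_le (h 1) (h 2))

theorem exists_nrm (x : Fin 3 → ℤ) : ∃ i, |x i| = nrm x := by
  unfold nrm
  rcases max_cases |x 0| (max |x 1| |x 2|) with h | h
  · exact ⟨0, h.1.symm⟩
  · rcases max_cases |x 1| |x 2| with h' | h'
    · exact ⟨1, by rw [h.1, h'.1]⟩
    · exact ⟨2, by rw [h.1, h'.1]⟩

theorem nrm_nonneg (x : Fin 3 → ℤ) : 0 ≤ nrm x := le_trans (abs_nonneg _) (abs_le_nrm x 0)

theorem nrm_pos {x : Fin 3 → ℤ} (h : x ≠ 0) : 0 < nrm x := by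
  by_contra hc
  push Not at hc
  apply h
  funext i
  have := abs_le_nrm x i
  have h2 : |x i| ≤ 0 := le_trans this hc
  simpa using h2

/-- the box -/
noncomputable def box (ρ : ℤ) : Finset (Fin 3 → ℤ) := Fintype.piFinset fun _ => Icc (-ρ) ρ

theorem mem_box {ρ : ℤ} {x : Fin 3 → ℤ} : x ∈ box ρ ↔ ∀ i, |x i| ≤ ρ := by
  simp [box, abs_le]

theorem mem_box' {ρ : ℤ} {x : Fin 3 → ℤ} : x ∈ box ρ ↔ nrm x ≤ ρ := by
  rw [mem_box]
  exact ⟨nrm_le, fun h i => le_trans (abs_le_nrm x i) h⟩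

theorem abs_cr_le {x y : Fin 3 → ℤ} (i : Fin 3) : |cr x y i| ≤ 2 * nrm x * nrm y := by
  have key : ∀ a b c d : Fin 3, |x a * y b - x c * y d| ≤ 2 * nrm x * nrm y := by
    intro a b c d
    have h1 : |x a * y b| ≤ nrm x * nrm y := by
      rw [abs_mul]
      exact mul_le_mul (abs_le_nrm x a) (abs_le_nrm y b) (abs_nonneg _) (nrm_nonneg x)
    have h2 : |x c * y d| ≤ nrm x * nrm y := by
      rw [abs_mul]
      exact mul_le_mul (abs_le_nrm x c) (abs_le_nrm y d) (abs_nonneg _) (nrm_nonneg x)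
    have := abs_sub (x a * y b) (x c * y d)
    linarith
  fin_cases i
  · exact key _ _ _ _
  · exact key _ _ _ _
  · exact key _ _ _ _

/-- primitive vectors -/
def Prim (ν : Fin 3 → ℤ) : Prop := ∃ β : Fin 3 → ℤ, dt β ν = 1

theorem Prim.ne_zero {ν : Fin 3 → ℤ} (h : Prim ν) : ν ≠ 0 := by
  rintro rfl
  obtain ⟨β, hβ⟩ := h
  simp [dt] at hβ

theorem exists_prim {ξ : Fin 3 → ℤ} (h : ξ ≠ 0) :
    ∃ g : ℤ, g ≠ 0 ∧ ∃ ν, Prim ν ∧ ∀ i, ξ i = g * ν i := by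
  set g1 : ℤ := (Int.gcd (ξ 1) (ξ 2) : ℤ) with hg1
  set g : ℤ := (Int.gcd (ξ 0) g1 : ℤ) with hg
  have hd0 : g ∣ ξ 0 := Int.gcd_dvd_left _ _
  have hdg : g ∣ g1 := Int.gcd_dvd_right _ _
  have hd1 : g ∣ ξ 1 := hdg.trans (Int.gcd_dvd_left _ _)
  have hd2 : g ∣ ξ 2 := hdg.trans (Int.gcd_dvd_right _ _)
  obtain ⟨a0, ha0⟩ := hd0
  obtain ⟨a1, ha1⟩ := hd1
  obtain ⟨a2, ha2⟩ := hd2
  have hg0 : g ≠ 0 := by
    intro h0
    apply h
    rw [vec3_zero_iff]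
    rw [h0] at ha0 ha1 ha2
    simp at ha0 ha1 ha2
    exact ⟨ha0, ha1, ha2⟩
  have b1 := Int.gcd_eq_gcd_ab (ξ 1) (ξ 2)
  have b2 := Int.gcd_eq_gcd_ab (ξ 0) g1
  rw [← hg1] at b1
  rw [← hg] at b2
  refine ⟨g, hg0, ![a0, a1, a2], ⟨![Int.gcdA (ξ 0) g1, Int.gcdA (ξ 1) (ξ 2) * Int.gcdB (ξ 0) g1,
    Int.gcdB (ξ 1) (ξ 2) * Int.gcdB (ξ 0) g1], ?_⟩, ?_⟩
  · apply mul_left_cancel₀ hg0
    simp only [dt, Matrix.cons_val_zero, Matrix.cons_val_one, Matrix.cons_val_two,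
      Matrix.head_cons, Matrix.tail_cons, Matrix.cons_val]
    generalize Int.gcdA (ξ 0) g1 = A at *
    generalize Int.gcdB (ξ 0) g1 = B at *
    generalize Int.gcdA (ξ 1) (ξ 2) = C at *
    generalize Int.gcdB (ξ 1) (ξ 2) = D at *
    have : g * (A * a0 + C * B * a1 + D * B * a2) = ξ 0 * A + (ξ 1 * C + ξ 2 * D) * B := by
      rw [ha0, ha1, ha2]; ring
    rw [this, ← b1, ← b2]; ring
  · rw [forall3]
    exact ⟨ha0, ha1, ha2⟩

theorem cr_eq_mul_of_perp {ν x y β : Fin 3 → ℤ} (hβ : dt β ν = 1) (hx : dt x ν = 0)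
    (hy : dt y ν = 0) (i : Fin 3) : cr x y i = dt β (cr x y) * ν i := by
  simp only [dt] at *
  fin_cases i
  · simp
    linear_combination (-(x 1 * y 2 - x 2 * y 1)) * hβ - (β 2 * y 1 - β 1 * y 2) * hx
      + (β 2 * x 1 - β 1 * x 2) * hy
  · simp
    linear_combination (-(x 2 * y 0 - x 0 * y 2)) * hβ - (β 0 * y 2 - β 2 * y 0) * hx
      + (β 0 * x 2 - β 2 * x 0) * hy
  · simp
    linear_combination (-(x 0 * y 1 - x 1 * y 0)) * hβ - (β 1 * y 0 - β 0 * y 1) * hx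
      + (β 1 * x 0 - β 0 * x 1) * hy

end Crest.Agent.R32
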