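import Crest.Agent.R32.Basic

set_option autoImplicit false

open Finset

namespace Crest.Agent.R32

variable {F : Type*} [Field F] [Fintype F] [DecidableEq F]

/-- the special linear group as a finset -/
def SLs (F : Type*) [Field F] [Fintype F] [DecidableEq F] : Finset (Matrix (Fin 3) (Fin 3) F) :=
  univ.filter fun g => g.det = 1

theorem mem_SLs {g : Matrix (Fin 3) (Fin 3) F} : g ∈ SLs F ↔ g.det = 1 := by simp [SLs]

theorem card_dt_eq (ξ : Fin 3 → F) (κ : F) (hκ : κ ≠ 0) :
    (univ.filter fun e : Fin 3 → F => dt ξ e = κ).card ≤ Fintype.card F ^ 2 := by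
  by_cases h : ξ = 0
  · have : (univ.filter fun e : Fin 3 → F => dt ξ e = κ) = ∅ := by
      apply filter_eq_empty_iff.2
      intro e _ he
      apply hκ
      rw [← he, h]; simp [dt]
    rw [this]; simp
  have hc : Fintype.card F ^ 2 = (univ : Finset (F × F)).card := by
    simp [sq]
  rw [hc]
  rw [vec3_zero_iff] at h
  by_cases h0 : ξ 0 = 0
  · by_cases h1 : ξ 1 = 0
    · have h2 : ξ 2 ≠ 0 := fun h2 => h ⟨h0, h1, h2⟩
      apply card_le_card_of_injOn (fun e => (e 0, e 1)) (fun _ _ => by simp)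
      intro x hx y hy hxy
      simp only [coe_filter, mem_univ, true_and, Set.mem_ofPred_eq, dt, Prod.mk.injEq] at hx hy hxy
      refine vec3_ext hxy.1 hxy.2 (mul_left_cancel₀ h2 ?_)
      rw [hxy.1, hxy.2] at hx
      linear_combination hx - hy
    · apply card_le_card_of_injOn (fun e => (e 0, e 2)) (fun _ _ => by simp)
      intro x hx y hy hxy
      simp only [coe_filter, mem_univ, true_and, Set.mem_ofPred_eq, dt, Prod.mk.injEq] at hx hy hxy
      refine vec3_ext hxy.1 (mul_left_cancel₀ h1 ?_) hxy.2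
      rw [hxy.1, hxy.2] at hx
      linear_combination hx - hy
  · apply card_le_card_of_injOn (fun e => (e 1, e 2)) (fun _ _ => by simp)
    intro x hx y hy hxy
    simp only [coe_filter, mem_univ, true_and, Set.mem_ofPred_eq, dt, Prod.mk.injEq] at hx hy hxy
    refine vec3_ext (mul_left_cancel₀ h0 ?_) hxy.1 hxy.2
    rw [hxy.1, hxy.2] at hx
    linear_combination hx - hy

omit [Fintype F] [DecidableEq F] in
theorem eq_of_dt_eq {u w e r r' : Fin 3 → F} (h : dt (cr u w) e ≠ 0) (h1 : dt r u = dt r' u)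
    (h2 : dt r w = dt r' w) (h3 : dt r e = dt r' e) : r = r' := by
  simp only [dt, cr_0, cr_1, cr_2] at *
  refine vec3_ext (mul_left_cancel₀ h ?_) (mul_left_cancel₀ h ?_) (mul_left_cancel₀ h ?_)
  · linear_combination (u 1 * w 2 - u 2 * w 1) * h3 + (w 1 * e 2 - w 2 * e 1) * h1
      + (e 1 * u 2 - e 2 * u 1) * h2
  · linear_combination (u 2 * w 0 - u 0 * w 2) * h3 + (w 2 * e 0 - w 0 * e 2) * h1
      + (e 2 * u 0 - e 0 * u 2) * h2
  · linear_combination (u 0 * w 1 - u 1 * w 0) * h3 + (w 0 * e 1 - w 1 * e 0) * h1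
      + (e 0 * u 1 - e 1 * u 0) * h2

omit [Fintype F] [DecidableEq F] in
theorem triple_mulVec (g : Matrix (Fin 3) (Fin 3) F) (u w e : Fin 3 → F) :
    dt (cr (g.mulVec u) (g.mulVec w)) (g.mulVec e) = g.det * dt (cr u w) e := by
  simp only [dt, cr_0, cr_1, cr_2, mulVec_apply3, det_eq_d3, d3]
  ring

omit [Fintype F] [DecidableEq F] in
theorem exists_dt_ne {ξ : Fin 3 → F} (h : ξ ≠ 0) : ∃ e, dt ξ e ≠ 0 := by
  by_contra hc
  push Not at hc
  apply h
  have h0 := hc ![1, 0, 0]
  have h1 := hc ![0, 1, 0]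
  have h2 := hc ![0, 0, 1]
  simp [dt] at h0 h1 h2
  exact vec3_ext h0 h1 h2

theorem stab2 {u w : Fin 3 → F} (h : cr u w ≠ 0) (u' w' : Fin 3 → F) :
    ((SLs F).filter fun g => g.mulVec u = u' ∧ g.mulVec w = w').card ≤ Fintype.card F ^ 2 := by
  obtain ⟨e, he⟩ := exists_dt_ne h
  refine le_trans ?_ (card_dt_eq (cr u' w') _ he)
  apply card_le_card_of_injOn (fun g => g.mulVec e)
  · intro g hg
    simp only [coe_filter, Set.mem_ofPred_eq, mem_SLs, mem_univ, true_and] at hg ⊢
    rw [← hg.2.1, ← hg.2.2, triple_mulVec, hg.1, one_mul]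
  · intro g hg g' hg' hgg
    simp only [coe_filter, Set.mem_ofPred_eq, mem_SLs] at hg hg' hgg
    refine (funext fun i => ?_ : (g : Fin 3 → Fin 3 → F) = g')
    apply eq_of_dt_eq he
    · rw [← mulVec_apply3, ← mulVec_apply3, hg.2.1, hg'.2.1]
    · rw [← mulVec_apply3, ← mulVec_apply3, hg.2.2, hg'.2.2]
    · rw [← mulVec_apply3, ← mulVec_apply3, hgg]

theorem stab3 {u : Fin 3 → F} (h : u ≠ 0) (u' : Fin 3 → F) :
    ((SLs F).filter fun g => g.mulVec u = u').card ≤ Fintype.card F ^ 5 := by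
  obtain ⟨w, hw⟩ : ∃ w, cr u w ≠ 0 := by
    by_contra hc
    push Not at hc
    apply h
    have h0 := vec3_zero_iff.1 (hc ![1, 0, 0])
    have h1 := vec3_zero_iff.1 (hc ![0, 1, 0])
    simp at h0 h1
    exact vec3_ext h1.2 h0.2 h0.1
  have := card_le_mul_card_image_of_maps_to (s := (SLs F).filter fun g => g.mulVec u = u')
    (t := (univ : Finset (Fin 3 → F))) (f := fun g => g.mulVec w) (fun _ _ => mem_univ _)
    (Fintype.card F ^ 2) (fun w' _ => by
      rw [filter_filter]
      exact stab2 hw u' w')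
  refine le_trans this (le_of_eq ?_)
  simp only [card_univ, Fintype.card_pi, prod_const, Fintype.card_fin]
  ring

theorem stab1 {A : Matrix (Fin 3) (Fin 3) F} (h : A.det ≠ 0) (V : Matrix (Fin 3) (Fin 3) F) :
    ((SLs F).filter fun g => g * A = V).card ≤ 1 := by
  rw [card_le_one]
  intro g hg g' hg'
  rw [mem_filter] at hg hg'
  have hu : IsUnit A := (Matrix.isUnit_iff_isUnit_det A).2 (Ne.isUnit h)
  exact hu.mul_right_cancel (hg.2.trans hg'.2.symm)

theorem card_SLs_ge : Fintype.card F ^ 8 ≤ 4 * (SLs F).card := by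
  let S : Finset ((F × F) × (F × F × F) × (F × F × F)) :=
    ((univ.erase 0) ×ˢ (univ.erase 0)) ×ˢ univ
  let Φ : (F × F) × (F × F × F) × (F × F × F) → Matrix (Fin 3) (Fin 3) F := fun t =>
    !![t.1.1, t.2.1.1, t.2.1.2.1;
       t.2.1.2.2, (t.1.2 + t.2.1.1 * t.2.1.2.2) / t.1.1, t.2.2.1;
       t.2.2.2.1, t.2.2.2.2,
        (1 + t.1.1 * t.2.2.1 * t.2.2.2.2 - t.2.1.1 * t.2.2.1 * t.2.2.2.1
          - t.2.1.2.1 * t.2.1.2.2 * t.2.2.2.2
          + t.2.1.2.1 * ((t.1.2 + t.2.1.1 * t.2.1.2.2) / t.1.1) * t.2.2.2.1) / t.1.2]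
  have h1 : S.card ≤ (SLs F).card := by
    apply card_le_card_of_injOn Φ
    · rintro ⟨⟨a, b⟩, ⟨c, d, e⟩, ⟨f, g, h⟩⟩ ht
      simp only [S, coe_product, coe_erase, coe_univ, Set.mem_prod, Set.mem_sdiff, Set.mem_univ,
        Set.mem_singleton_iff, true_and, and_true] at ht
      obtain ⟨ha, hb⟩ := ht
      simp only [mem_coe, mem_SLs, Φ, Matrix.det_fin_three]
      simp
      field_simp
      ring
    · rintro ⟨⟨a, b⟩, ⟨c, d, e⟩, ⟨f, g, h⟩⟩ ht ⟨⟨a', b'⟩, ⟨c', d', e'⟩, ⟨f', g', h'⟩⟩ ht' heq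
      simp only [S, coe_product, coe_erase, coe_univ, Set.mem_prod, Set.mem_sdiff, Set.mem_univ,
        Set.mem_singleton_iff, true_and, and_true] at ht ht'
      have e00 : a = a' := congrFun (congrFun heq 0) 0
      have e01 : c = c' := congrFun (congrFun heq 0) 1
      have e02 : d = d' := congrFun (congrFun heq 0) 2
      have e10 : e = e' := congrFun (congrFun heq 1) 0
      have e11 : (b + c * e) / a = (b' + c' * e') / a' := congrFun (congrFun heq 1) 1
      have e12 : f = f' := congrFun (congrFun heq 1) 2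
      have e20 : g = g' := congrFun (congrFun heq 2) 0
      have e21 : h = h' := congrFun (congrFun heq 2) 1
      subst e00 e01 e02 e10 e12 e20 e21
      have : b = b' := by
        have := (div_left_inj' ht.1).1 e11
        linear_combination this
      subst this
      rfl
  have h2 : S.card = (Fintype.card F - 1) ^ 2 * Fintype.card F ^ 6 := by
    simp only [S, card_product, card_erase_of_mem (mem_univ _), card_univ, Fintype.card_prod]
    ring
  have h3 : 2 ≤ Fintype.card F := Fintype.one_lt_card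
  have h4 : Fintype.card F ≤ 2 * (Fintype.card F - 1) := by omega
  calc Fintype.card F ^ 8 = Fintype.card F ^ 2 * Fintype.card F ^ 6 := by ring
    _ ≤ (2 * (Fintype.card F - 1)) ^ 2 * Fintype.card F ^ 6 := by gcongr
    _ = 4 * S.card := by rw [h2]; ring
    _ ≤ _ := by gcongr

/-- the paraboloid -/
def gam (ν : F) (t : F × F) : Fin 3 → F := ![t.1, t.2, t.1 ^ 2 - ν * t.2 ^ 2]

omit [Fintype F] [DecidableEq F] in
theorem aniso {ν : F} (hν : ¬ IsSquare ν) {a b : F} (h : a ^ 2 - ν * b ^ 2 = 0) :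
    a = 0 ∧ b = 0 := by
  by_cases hb : b = 0
  · subst hb
    simp at h
    exact ⟨h, rfl⟩
  · exfalso
    apply hν
    refine ⟨a / b, ?_⟩
    field_simp
    linear_combination -h

omit [Fintype F] [DecidableEq F] in
theorem cap {ν : F} (hν : ¬ IsSquare ν) {t1 t2 t3 : F × F} (h12 : t1 ≠ t2) (h13 : t1 ≠ t3)
    (h23 : t2 ≠ t3) {A B C : F} (hs : A + B + C = 0)
    (h : ∀ i, A * gam ν t1 i + B * gam ν t2 i + C * gam ν t3 i = 0) :
    A = 0 ∧ B = 0 ∧ C = 0 := by
  rw [forall3] at h
  obtain ⟨h0, h1, h2⟩ := h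
  simp only [gam, Matrix.cons_val_zero, Matrix.cons_val_one, Matrix.cons_val_two,
    Matrix.head_cons, Matrix.tail_cons] at h0 h1 h2
  have key : ∀ {s1 s2 : F × F}, s1 ≠ s2 →
      (s1.1 - s2.1) ^ 2 - ν * (s1.2 - s2.2) ^ 2 ≠ 0 := by
    intro s1 s2 hs12 hz
    obtain ⟨a1, a2⟩ := aniso hν hz
    exact hs12 (Prod.ext (sub_eq_zero.1 a1) (sub_eq_zero.1 a2))
  have hC : C = -A - B := by linear_combination hs
  subst hC
  have k1 : A * B * ((t1.1 - t2.1) ^ 2 - ν * (t1.2 - t2.2) ^ 2) = 0 := by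
    linear_combination (A + B) * h2 - (A * t1.1 + B * t2.1 + (A + B) * t3.1) * h0
      + ν * (A * t1.2 + B * t2.2 + (A + B) * t3.2) * h1
  have k2 : A * B = 0 := (mul_eq_zero.1 k1).resolve_right (key h12)
  rcases mul_eq_zero.1 k2 with hA | hB
  · subst hA
    have hB : B = 0 := by
      by_contra hB
      apply h23
      apply Prod.ext
      · apply mul_left_cancel₀ hB; linear_combination h0
      · apply mul_left_cancel₀ hB; linear_combination h1
    subst hB
    simp
  · subst hB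
    have hA : A = 0 := by
      by_contra hA
      apply h13
      apply Prod.ext
      · apply mul_left_cancel₀ hA; linear_combination h0
      · apply mul_left_cancel₀ hA; linear_combination h1
    subst hA
    simp

omit [Fintype F] [DecidableEq F] in
theorem cap_cr {ν : F} (hν : ¬ IsSquare ν) {t1 t2 t3 : F × F} (h12 : t1 ≠ t2) (h13 : t1 ≠ t3)
    (h23 : t2 ≠ t3) : cr (gam ν t2 - gam ν t1) (gam ν t3 - gam ν t1) ≠ 0 := by
  intro h
  set a := gam ν t2 - gam ν t1 with ha
  set b := gam ν t3 - gam ν t1 with hb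
  have ha0 : a ≠ 0 := by
    intro h0
    have := cap hν h12 h13 h23 (A := -1) (B := 1) (C := 0) (by ring) (fun i => by
      have := congrFun h0 i
      simp only [ha, Pi.sub_apply, Pi.zero_apply] at this
      linear_combination this)
    exact one_ne_zero this.2.1
  obtain ⟨i, hi⟩ : ∃ i, a i ≠ 0 := by
    by_contra hc
    push Not at hc
    exact ha0 (funext hc)
  have hpar : ∀ l, b l * a i = b i * a l := by
    rw [vec3_zero_iff] at h
    simp only [cr_0, cr_1, cr_2] at h
    obtain ⟨h0, h1, h2⟩ := h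
    intro l
    fin_cases i <;> fin_cases l <;> simp <;>
      first
        | linear_combination h0 | linear_combination -h0 | linear_combination h1
        | linear_combination -h1 | linear_combination h2 | linear_combination -h2
  have := cap hν h12 h13 h23 (A := b i - a i) (B := - b i) (C := a i) (by ring) (fun l => by
    have := hpar l
    rw [show b l = gam ν t3 l - gam ν t1 l from rfl, show a l = gam ν t2 l - gam ν t1 l from rfl]
      at this
    linear_combination this)
  exact hi this.2.2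

theorem stab_aff {ν : F} (hν : ¬ IsSquare ν) {t1 t2 t3 : F × F} (h12 : t1 ≠ t2) (h13 : t1 ≠ t3)
    (h23 : t2 ≠ t3) (y1 y2 y3 : Fin 3 → F) :
    ((SLs F ×ˢ (univ : Finset (Fin 3 → F))).filter fun x =>
      x.2 + x.1.mulVec (gam ν t1) = y1 ∧ x.2 + x.1.mulVec (gam ν t2) = y2 ∧
        x.2 + x.1.mulVec (gam ν t3) = y3).card ≤ Fintype.card F ^ 2 := by
  refine le_trans ?_ (stab2 (cap_cr hν h12 h13 h23) (y2 - y1) (y3 - y1))
  apply card_le_card_of_injOn (fun x => x.1)
  · intro x hx
    simp only [coe_filter, mem_product, mem_univ, and_true, Set.mem_ofPred_eq] at hx ⊢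
    obtain ⟨h0, h1, h2, h3⟩ := hx
    refine ⟨h0, ?_, ?_⟩
    · rw [Matrix.mulVec_sub, ← h1, ← h2]; abel
    · rw [Matrix.mulVec_sub, ← h1, ← h3]; abel
  · intro x hx y hy hxy
    simp only [coe_filter, mem_product, mem_univ, and_true, Set.mem_ofPred_eq] at hx hy hxy
    apply Prod.ext hxy
    have := hx.2.1.trans hy.2.1.symm
    rw [hxy] at this
    exact add_right_cancel this

end Crest.Agent.R32
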