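import Crest.Agent.R32.Lattice
import Crest.Agent.R32.Stab

set_option autoImplicit false

open Finset

namespace Crest.Agent.R32

/-- no primitive relation with coefficient sum zero -/
def NC (V : Fin 3 → Fin 3 → ℤ) : Prop :=
  ∀ ν, Prim ν → ν 0 + ν 1 + ν 2 = 0 → (∀ i, dt (V i) ν = 0) → False

theorem perp_of_par {a x ν : Fin 3 → ℤ} (ha : a ≠ 0) (hx : cr a x = 0) (h : dt a ν = 0) :
    dt x ν = 0 := by
  obtain ⟨i, hi⟩ : ∃ i, a i ≠ 0 := by
    by_contra hc
    push Not at hc
    exact ha (funext hc)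
  have h0 := par_comp hx i 0
  have h1 := par_comp hx i 1
  have h2 := par_comp hx i 2
  apply mul_left_cancel₀ hi
  simp only [dt] at h ⊢
  linear_combination (x i) * h + ν 0 * h0 + ν 1 * h1 + ν 2 * h2

theorem sing_struct {V : Fin 3 → Fin 3 → ℤ} (h2 : V 2 ≠ 0) (hNC : NC V)
    (hd : d3 (V 0) (V 1) (V 2) = 0) :
    (∃ i j, cr (V i) (V j) ≠ 0) ∧ ∃ ν, Prim ν ∧ ν 0 + ν 1 + ν 2 ≠ 0 ∧ ∀ i, dt (V i) ν = 0 := by
  have h1 : ∃ j, cr (V 2) (V j) ≠ 0 := by
    by_contra hc
    push Not at hc
    by_cases h : cr (V 2) ![1, 1, 1] = 0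
    · rw [vec3_zero_iff] at h
      simp at h
      refine hNC ![1, -1, 0] ⟨![1, 0, 0], by simp [dt]⟩ (by simp) (fun i => ?_)
      apply perp_of_par h2 (hc i)
      simp [dt]
      linarith [h.2.2]
    · obtain ⟨g, hg, ν, hν, hgν⟩ := exists_prim h
      rw [forall3] at hgν
      simp at hgν
      obtain ⟨e0, e1, e2⟩ := hgν
      refine hNC ν hν (mul_left_cancel₀ hg ?_) (fun i => ?_)
      · linear_combination -e0 - e1 - e2
      · apply perp_of_par h2 (hc i)
        apply mul_left_cancel₀ hg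
        simp only [dt]
        linear_combination (-(V 2 0)) * e0 - (V 2 1) * e1 - (V 2 2) * e2
  obtain ⟨j, hj⟩ := h1
  refine ⟨⟨2, j, hj⟩, ?_⟩
  obtain ⟨g, hg, ν, hν, hgν⟩ := exists_prim hj
  have hperp : ∀ i, dt (V i) ν = 0 := by
    intro i
    apply mul_left_cancel₀ hg
    have h3 : g * dt (V i) ν = dt (V i) (cr (V 2) (V j)) := by
      simp only [dt]
      rw [hgν 0, hgν 1, hgν 2]; ring
    rw [h3, mul_zero]
    simp only [d3] at hd
    fin_cases i <;> fin_cases j <;> simp [dt] <;>
      first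
        | ring1
        | linear_combination hd
        | linear_combination -hd
  exact ⟨ν, hν, fun h => hNC ν hν h hperp, hperp⟩

theorem card_box_res (M : ℕ) [NeZero M] (H : ℤ) (hH : (M : ℤ) ≤ 3 * H)
    (K : Finset (Fin 3 → ZMod M)) (S : Finset (Fin 3 → ℤ))
    (hS : ∀ ν ∈ S, ν ∈ box H ∧ (fun i => (ν i : ZMod M)) ∈ K) :
    (S.card : ℝ) ≤ K.card * (125 / (M : ℝ) ^ 3) * (H : ℝ) ^ 3 := by
  classical
  have hM : (0 : ℤ) < M := by exact_mod_cast Nat.pos_of_ne_zero (NeZero.ne M)
  have hH0 : 0 < H := by linarith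
  have h1 : S.card ≤ (K ×ˢ Fintype.piFinset fun _ : Fin 3 => Icc (0 : ℤ) (2 * H / M)).card := by
    apply card_le_card_of_injOn (fun ν => (fun i => (ν i : ZMod M), fun i => (ν i + H) / M))
    · intro ν hν
      obtain ⟨h1, h2⟩ := hS ν hν
      rw [mem_box] at h1
      simp only [coe_product, Set.mem_prod, mem_coe, Fintype.mem_piFinset, mem_Icc]
      refine ⟨h2, fun i => ?_⟩
      have := abs_le.1 (h1 i)
      exact ⟨Int.ediv_nonneg (by linarith) hM.le, Int.ediv_le_ediv hM (by linarith)⟩
    · intro x _ y _ hxy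
      simp only [Prod.mk.injEq] at hxy
      funext i
      have e1 := congrFun hxy.1 i
      have e2 := congrFun hxy.2 i
      rw [ZMod.intCast_eq_intCast_iff] at e1
      have e3 : (x i + H) % M = (y i + H) % M := Int.ModEq.add_right H e1
      have h5 := Int.emod_add_mul_ediv (x i + H) M
      have h6 := Int.emod_add_mul_ediv (y i + H) M
      rw [e2, e3] at h5
      linarith
  rw [card_product, Fintype.card_piFinset] at h1
  simp only [Int.card_Icc, prod_const, card_univ, Fintype.card_fin] at h1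
  have h2 : (((2 * H / M + 1 - 0).toNat : ℕ) : ℝ) ≤ 5 * H / M := by
    have h3 : (((2 * H / M + 1 - 0).toNat : ℕ) : ℤ) * M ≤ 5 * H := by
      rw [Int.toNat_of_nonneg (by have := Int.ediv_nonneg (a := 2 * H) (by linarith) hM.le; linarith)]
      have := Int.ediv_mul_le (2 * H) hM.ne'
      linarith
    rw [le_div_iff₀ (by exact_mod_cast hM)]
    exact_mod_cast h3
  have h3 : (S.card : ℝ) ≤ K.card * (((2 * H / M + 1 - 0).toNat : ℕ) : ℝ) ^ 3 := by
    exact_mod_cast h1
  calc (S.card : ℝ) ≤ K.card * (5 * H / M) ^ 3 := by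
        refine le_trans h3 ?_
        gcongr
    _ = _ := by ring

section
variable {F : Type*} [Field F]

theorem par_comp' {a b : Fin 3 → F} (h : cr a b = 0) (i l : Fin 3) : b l * a i = b i * a l := by
  rw [vec3_zero_iff] at h
  simp only [cr_0, cr_1, cr_2] at h
  obtain ⟨h0, h1, h2⟩ := h
  fin_cases i <;> fin_cases l <;> simp <;>
    first
      | linear_combination h0 | linear_combination -h0 | linear_combination h1
      | linear_combination -h1 | linear_combination h2 | linear_combination -h2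

theorem cr_ne_of_ne {u w : Fin 3 → F}
    (H : ∀ a b : F, (∀ i, a * u i + b * w i = 0) → a + b = 0) (hne : u ≠ w) : cr u w ≠ 0 := by
  intro h
  have hu : ∃ i, u i ≠ 0 := by
    by_contra hc
    push Not at hc
    have := H 1 0 (fun i => by simp [hc i])
    simp at this
  obtain ⟨i, hi⟩ := hu
  have h1 := H (w i) (- u i) (fun l => by linear_combination - par_comp' h i l)
  apply hne
  funext l
  apply mul_left_cancel₀ hi
  linear_combination - par_comp' h i l - u l * h1

end

/-- the constant in the counting bound -/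
def Cst : ℝ := 72 ^ 3 * 216

open Classical in
theorem bad_count (M : ℕ) [Fact M.Prime] (A : Matrix (Fin 3) (Fin 3) (ZMod M))
    (HA : ∀ ν : Fin 3 → ZMod M, (∀ i, dt (A i) ν = 0) → ν 0 + ν 1 + ν 2 = 0) (ρ : ℕ)
    (𝒱 : Finset (Fin 3 → Fin 3 → ℤ))
    (h𝒱 : ∀ V ∈ 𝒱, (∀ i, nrm (V i) ≤ ρ) ∧ V 2 ≠ 0 ∧ 4 * |d3 (V 0) (V 1) (V 2)| < M ∧ NC V ∧
      ∃ g ∈ SLs (ZMod M), ∀ i j, (g * A) i j = (V i j : ZMod M)) :
    ∃ σ : ℕ, (∀ W, ((SLs (ZMod M)).filter fun g => g * A = W).card ≤ σ) ∧
      (𝒱.card : ℝ) * σ ≤ Cst * (ρ : ℝ) ^ 6 * (Nat.log 2 (8 * ρ ^ 2) + 1) *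
        (if (∀ i, A i 0 = A i 1 ∧ A i 0 = A i 2) then (M : ℝ) else 1) := by
  have hMp : M.Prime := Fact.out
  have hM0 : (0 : ℝ) < M := by exact_mod_cast hMp.pos
  have hM1 : (1 : ℝ) ≤ M := by exact_mod_cast hMp.one_le
  have hM0' : (0 : ℤ) < M := by exact_mod_cast hMp.pos
  have hdet : ∀ V ∈ 𝒱, ((d3 (V 0) (V 1) (V 2) : ℤ) : ZMod M) = A.det := by
    intro V hV
    obtain ⟨-, -, -, -, g, hg, hgA⟩ := h𝒱 V hV
    have := Matrix.det_mul g A
    rw [mem_SLs.1 hg, one_mul, det_eq_d3] at this
    rw [← this]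
    simp only [d3, hgA]
    push_cast; ring
  have hlog : ((Nat.log 2 (2 * ρ ^ 2) : ℕ) : ℝ) + 1 ≤ (Nat.log 2 (8 * ρ ^ 2) : ℕ) + 1 := by
    have : Nat.log 2 (2 * ρ ^ 2) ≤ Nat.log 2 (8 * ρ ^ 2) := Nat.log_mono_right (by omega)
    have : ((Nat.log 2 (2 * ρ ^ 2) : ℕ) : ℝ) ≤ (Nat.log 2 (8 * ρ ^ 2) : ℕ) := by exact_mod_cast this
    linarith
  by_cases hA : A.det = 0
  · -- singular case
    have hsing : ∀ V ∈ 𝒱, (∃ i j, cr (V i) (V j) ≠ 0) ∧ ∃ ν, Prim ν ∧
        (ν 0 + ν 1 + ν 2 ≠ 0 ∧ ∀ i, dt (A i) (fun j => (ν j : ZMod M)) = 0) ∧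
          ∀ i, dt (V i) ν = 0 := by
      intro V hV
      have h1 := hdet V hV
      obtain ⟨-, h2, h3, h4, g, hg, hgA⟩ := h𝒱 V hV
      rw [hA, ZMod.intCast_zmod_eq_zero_iff_dvd] at h1
      have h5 : d3 (V 0) (V 1) (V 2) = 0 := by
        apply Int.eq_zero_of_abs_lt_dvd h1
        linarith [abs_nonneg (d3 (V 0) (V 1) (V 2))]
      obtain ⟨h6, ν, hν, h7, h8⟩ := sing_struct h2 h4 h5
      refine ⟨h6, ν, hν, ⟨h7, ?_⟩, h8⟩
      have h9 : g.mulVec (A.mulVec fun j => (ν j : ZMod M)) = 0 := by
        rw [Matrix.mulVec_mulVec]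
        funext i
        rw [mulVec_apply3]
        have := congrArg (Int.cast : ℤ → ZMod M) (h8 i)
        simp only [dt, hgA] at this ⊢
        push_cast at this
        exact this
      have h10 := Matrix.eq_zero_of_mulVec_eq_zero (by rw [mem_SLs.1 hg]; exact one_ne_zero) h9
      intro i
      rw [← mulVec_apply3, h10]; rfl
    have hQ : ∀ (K : Finset (Fin 3 → ZMod M)), (∀ ν, (∀ i, dt (A i) ν = 0) → ν ∈ K) →
        ∀ H : ℤ, 1 ≤ H → ((((box H).filter fun ν => ν 0 + ν 1 + ν 2 ≠ 0 ∧
          ∀ i, dt (A i) (fun j => (ν j : ZMod M)) = 0).card : ℕ) : ℝ) ≤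
            K.card * (125 / (M : ℝ) ^ 3) * (H : ℝ) ^ 3 := by
      intro K hK H hH
      by_cases hMH : (M : ℤ) ≤ 3 * H
      · apply card_box_res M H hMH
        intro ν hν
        rw [mem_filter] at hν
        exact ⟨hν.1, hK _ hν.2.2⟩
      · have : ((box H).filter fun ν => ν 0 + ν 1 + ν 2 ≠ 0 ∧
          ∀ i, dt (A i) (fun j => (ν j : ZMod M)) = 0) = ∅ := by
          apply filter_eq_empty_iff.2
          rintro ν hν ⟨h1, h2⟩
          apply h1
          have h3 := HA _ h2
          have h4 : ((ν 0 + ν 1 + ν 2 : ℤ) : ZMod M) = 0 := by push_cast; exact h3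
          rw [ZMod.intCast_zmod_eq_zero_iff_dvd] at h4
          apply Int.eq_zero_of_abs_lt_dvd h4
          rw [mem_box] at hν
          have a0 := abs_le.1 (hν 0)
          have a1 := abs_le.1 (hν 1)
          have a2 := abs_le.1 (hν 2)
          rw [abs_lt]
          constructor <;> linarith
        rw [this]
        have : (0 : ℝ) < H := by exact_mod_cast (by linarith : (0 : ℤ) < H)
        simp only [card_empty, Nat.cast_zero]
        positivity
    have hcol : ∀ (g W : Matrix (Fin 3) (Fin 3) (ZMod M)), g * A = W → ∀ j,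
        g.mulVec (fun i => A i j) = fun i => W i j := by
      intro g W hgW j
      funext i
      rw [mulVec_apply3, ← hgW, mul_apply3]; rfl
    by_cases hall : ∀ i, A i 0 = A i 1 ∧ A i 0 = A i 2
    · -- all columns equal
      rw [if_pos hall]
      have hu : (fun i => A i 0) ≠ 0 := by
        intro h
        have := HA ![1, 0, 0] (fun i => by simpa [dt] using congrFun h i)
        simp at this
      refine ⟨M ^ 5, fun W => ?_, ?_⟩
      · have := stab3 hu (fun i => W i 0)
        rw [ZMod.card] at this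
        refine le_trans (card_le_card ?_) this
        intro g hg
        rw [mem_filter] at hg ⊢
        exact ⟨hg.1, hcol g W hg.2 0⟩
      · let K : Finset (Fin 3 → ZMod M) := univ.filter fun ν => ν 0 + ν 1 + ν 2 = 0
        have hK : K.card ≤ M ^ 2 := by
          have hc : (univ : Finset (ZMod M × ZMod M)).card = M ^ 2 := by simp [sq]
          refine le_trans ?_ hc.le
          apply card_le_card_of_injOn (fun e => (e 0, e 1)) (fun _ _ => by simp)
          intro x hx y hy hxy
          simp only [K, coe_filter, mem_univ, true_and, Set.mem_ofPred_eq, Prod.mk.injEq]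
            at hx hy hxy
          refine vec3_ext hxy.1 hxy.2 ?_
          rw [hxy.1, hxy.2] at hx
          linear_combination hx - hy
        have hK' : (K.card : ℝ) ≤ (M : ℝ) ^ 2 := by exact_mod_cast hK
        have := card_sing_le (fun x => (x 0 : ZMod M) = x 1 ∧ (x 0 : ZMod M) = x 2)
          (fun x y hx hy => by
            simp only [Pi.sub_apply]; push_cast
            exact ⟨by rw [hx.1, hy.1], by rw [hx.2, hy.2]⟩) M hM0'
          (fun x y hx hy i => by
            rw [← ZMod.intCast_zmod_eq_zero_iff_dvd]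
            fin_cases i <;> simp [← hx.1, ← hy.1, ← hx.2, ← hy.2])
          (fun ν => ν 0 + ν 1 + ν 2 ≠ 0 ∧ ∀ i, dt (A i) (fun j => (ν j : ZMod M)) = 0)
          (K.card * (125 / (M : ℝ) ^ 3)) (by positivity)
          (fun H hH => by
            convert hQ K (fun ν hν => by simpa [K] using HA ν hν) H hH) ρ 𝒱
          (fun V hV => by
            refine ⟨fun i => ⟨(h𝒱 V hV).1 i, ?_⟩, hsing V hV⟩
            obtain ⟨-, -, -, -, g, hg, hgA⟩ := h𝒱 V hV
            rw [← hgA, ← hgA, ← hgA, mul_apply3, mul_apply3, mul_apply3, ← (hall 0).1,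
              ← (hall 0).2, ← (hall 1).1, ← (hall 1).2, ← (hall 2).1, ← (hall 2).2]
            exact ⟨rfl, rfl⟩)
        push_cast at this ⊢
        calc (𝒱.card : ℝ) * (M : ℝ) ^ 5 ≤ (18 * (ρ : ℝ) ^ 2 / M) ^ 3 *
              (8 * ((M : ℝ) ^ 2 * (125 / (M : ℝ) ^ 3)) * (Nat.log 2 (8 * ρ ^ 2) + 1)) *
                (M : ℝ) ^ 5 := by
              refine le_trans (mul_le_mul_of_nonneg_right this (by positivity)) ?_
              gcongr
          _ = 5832000 * (ρ : ℝ) ^ 6 * (Nat.log 2 (8 * ρ ^ 2) + 1) * M := by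
              field_simp; ring
          _ ≤ _ := by
              unfold Cst
              gcongr; norm_num
    · rw [if_neg hall]
      have hex : ∃ j l : Fin 3, (fun i => A i 0) ≠ (fun i => A i j) ∧
          (∀ a b : ZMod M, (∀ i, a * A i 0 + b * A i j = 0) → a + b = 0) ∧
          ∀ ν : Fin 3 → ZMod M, ν l = 0 → (∀ i, dt (A i) ν = ν 0 * A i 0 + ν j * A i j) ∧
            (ν 0 = 0 → ν j = 0 → ν = 0) := by
        by_cases h01 : (fun i => A i 0) = (fun i => A i 1)
        · refine ⟨2, 1, fun h02 => hall fun i => ⟨congrFun h01 i, congrFun h02 i⟩, ?_, ?_⟩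
          · intro a b hab
            have := HA ![a, 0, b] (fun i => by
              have := hab i
              simp [dt]; linear_combination this)
            simpa using this
          · intro ν hν
            refine ⟨fun i => by simp [dt, hν]; ring, fun h0 h2 => vec3_ext h0 hν h2⟩
        · refine ⟨1, 2, h01, ?_, ?_⟩
          · intro a b hab
            have := HA ![a, b, 0] (fun i => by
              have := hab i
              simp [dt]; linear_combination this)
            simpa using this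
          · intro ν hν
            refine ⟨fun i => by simp [dt, hν]; ring, fun h0 h1 => vec3_ext h0 h1 hν⟩
      obtain ⟨j, l, hne, hab, hl⟩ := hex
      have hcr := cr_ne_of_ne hab hne
      refine ⟨M ^ 2, fun W => ?_, ?_⟩
      · have := stab2 hcr (fun i => W i 0) (fun i => W i j)
        rw [ZMod.card] at this
        refine le_trans (card_le_card ?_) this
        intro g hg
        rw [mem_filter] at hg ⊢
        exact ⟨hg.1, hcol g W hg.2 0, hcol g W hg.2 j⟩
      · let K : Finset (Fin 3 → ZMod M) := univ.filter fun ν => ∀ i, dt (A i) ν = 0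
        have hK : K.card ≤ M := by
          have hc : (univ : Finset (ZMod M)).card = M := by simp
          refine le_trans ?_ hc.le
          apply card_le_card_of_injOn (fun e => e l) (fun _ _ => by simp)
          intro x hx y hy hxy
          simp only [K, coe_filter, mem_univ, true_and, Set.mem_ofPred_eq] at hx hy hxy
          have h1 : (x - y) l = 0 := by rw [Pi.sub_apply, hxy, sub_self]
          obtain ⟨h2, h3⟩ := hl _ h1
          have h4 : ∀ i, (x - y) 0 * A i 0 + (x - y) j * A i j = 0 := by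
            intro i
            rw [← h2 i]
            have a1 := hx i
            have a2 := hy i
            simp only [dt, Pi.sub_apply] at a1 a2 ⊢
            linear_combination a1 - a2
          have h5 := hab _ _ h4
          have h6 : (x - y) 0 = 0 := by
            by_contra h6
            apply hne
            funext i
            apply mul_left_cancel₀ h6
            linear_combination h4 i - A i j * h5
          rw [h6, zero_add] at h5
          exact sub_eq_zero.1 (h3 h6 h5)
        have hK' : (K.card : ℝ) ≤ (M : ℝ) := by exact_mod_cast hK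
        have := card_sing_le (fun _ => True) (fun _ _ _ _ => trivial) 1 one_pos
          (fun _ _ _ _ _ => one_dvd _)
          (fun ν => ν 0 + ν 1 + ν 2 ≠ 0 ∧ ∀ i, dt (A i) (fun j => (ν j : ZMod M)) = 0)
          (K.card * (125 / (M : ℝ) ^ 3)) (by positivity)
          (fun H hH => by
            convert hQ K (fun ν hν => by simpa [K] using hν) H hH) ρ 𝒱
          (fun V hV => ⟨fun i => ⟨(h𝒱 V hV).1 i, trivial⟩, hsing V hV⟩)
        push_cast at this ⊢
        calc (𝒱.card : ℝ) * (M : ℝ) ^ 2 ≤ (18 * (ρ : ℝ) ^ 2 / 1) ^ 3 *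
              (8 * ((M : ℝ) * (125 / (M : ℝ) ^ 3)) * (Nat.log 2 (8 * ρ ^ 2) + 1)) *
                (M : ℝ) ^ 2 := by
              refine le_trans (mul_le_mul_of_nonneg_right this (by positivity)) ?_
              gcongr
          _ = 5832000 * (ρ : ℝ) ^ 6 * (Nat.log 2 (8 * ρ ^ 2) + 1) * 1 := by
              field_simp; ring
          _ ≤ _ := by
              unfold Cst
              gcongr; norm_num
  · refine ⟨1, fun W => stab1 hA W, ?_⟩
    have hle : (1 : ℝ) ≤ (if (∀ i, A i 0 = A i 1 ∧ A i 0 = A i 2) then (M : ℝ) else 1) := by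
      split_ifs
      · exact hM1
      · exact le_rfl
    refine le_trans ?_ (le_mul_of_one_le_right (by unfold Cst; positivity) hle)
    rcases 𝒱.eq_empty_or_nonempty with rfl | ⟨V0, hV0⟩
    · simp only [card_empty, Nat.cast_zero, zero_mul]
      unfold Cst; positivity
    have hk : d3 (V0 0) (V0 1) (V0 2) ≠ 0 := by
      intro h
      have := hdet V0 hV0
      rw [h] at this
      exact hA (by rw [← this]; simp)
    have := card_det_le ρ _ hk 𝒱 (fun V hV => ⟨(h𝒱 V hV).1, by
      have h1 := (hdet V hV).trans (hdet V0 hV0).symm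
      rw [← sub_eq_zero, ← Int.cast_sub, ZMod.intCast_zmod_eq_zero_iff_dvd] at h1
      have h2 := (h𝒱 V hV).2.2.1
      have h3 := (h𝒱 V0 hV0).2.2.1
      have := Int.eq_zero_of_abs_lt_dvd h1 (by
        have := abs_sub (d3 (V 0) (V 1) (V 2)) (d3 (V0 0) (V0 1) (V0 2))
        linarith [abs_nonneg (d3 (V 0) (V 1) (V 2)), abs_nonneg (d3 (V0 0) (V0 1) (V0 2))])
      linarith⟩)
    rw [Nat.cast_one, mul_one]
    refine le_trans this (le_of_eq ?_)
    unfold Cst; ring

end Crest.Agent.R32
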