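import Crest.Agent.R32.Basic

set_option autoImplicit false

open Finset

namespace Crest.Agent.R32

theorem digit_term (X M : ℤ) (hX : 1 ≤ X) (i g : ℕ) (h1 : X ^ (i + 2) ≤ M) (h2 : X ^ (g + 1) ≤ M) :
    ∃ e η : ℤ, M ∣ X ^ i * (M / X ^ g) - e ∧
      X ^ 2 * e = (if i + 1 = g then X * M else 0) + η ∧ |η| ≤ M := by
  have hX0 : 0 < X := by linarith
  have hg : 0 < X ^ g := by positivity
  have hM : 0 < M := lt_of_lt_of_le (by positivity) h1
  have e1 := Int.emod_add_mul_ediv M (X ^ g)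
  have e2 := Int.emod_nonneg M hg.ne'
  have e3 := Int.emod_lt_of_pos M hg
  have e4 : 0 ≤ M / X ^ g := Int.ediv_nonneg hM.le hg.le
  set Γ := M / X ^ g
  set r := M % X ^ g
  rcases lt_trichotomy (i + 1) g with h | h | h
  · refine ⟨X ^ i * Γ, X ^ 2 * (X ^ i * Γ), by simp, by rw [if_neg h.ne]; ring, ?_⟩
    rw [abs_of_nonneg (by positivity)]
    have : X ^ (i + 2) ≤ X ^ g := pow_le_pow_right₀ hX (by omega)
    calc X ^ 2 * (X ^ i * Γ) = X ^ (i + 2) * Γ := by ring
      _ ≤ X ^ g * Γ := by gcongr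
      _ ≤ M := by linarith
  · subst h
    refine ⟨X ^ i * Γ, - (X * r), by simp, ?_, ?_⟩
    · rw [if_pos rfl]
      linear_combination X * e1
    · rw [abs_neg, abs_of_nonneg (by positivity)]
      calc X * r ≤ X * X ^ (i + 1) := by gcongr
        _ = X ^ (i + 1 + 1) := by ring
        _ ≤ M := h2
  · obtain ⟨d, rfl⟩ : ∃ d, i = g + d := ⟨i - g, by omega⟩
    refine ⟨- (X ^ d * r), - (X ^ 2 * (X ^ d * r)), ⟨X ^ d, ?_⟩, ?_, ?_⟩
    · linear_combination X ^ d * e1
    · rw [if_neg h.ne']; ring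
    · rw [abs_neg, abs_of_nonneg (by positivity)]
      calc X ^ 2 * (X ^ d * r) ≤ X ^ 2 * (X ^ d * X ^ g) := by gcongr
        _ = X ^ (g + d + 2) := by ring
        _ ≤ M := h1

theorem abs_d3_le {x y z : Fin 3 → ℤ} {A B C : ℤ} (hx : ∀ i, 0 ≤ x i ∧ x i ≤ A)
    (hy : ∀ i, 0 ≤ y i ∧ y i ≤ B) (hz : ∀ i, 0 ≤ z i ∧ z i ≤ C) :
    |d3 x y z| ≤ 3 * (A * B * C) := by
  have key : ∀ i j k, 0 ≤ x i * y j * z k ∧ x i * y j * z k ≤ A * B * C := by
    intro i j k
    have hA : 0 ≤ A := le_trans (hx i).1 (hx i).2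
    have hB : 0 ≤ B := le_trans (hy j).1 (hy j).2
    refine ⟨mul_nonneg (mul_nonneg (hx i).1 (hy j).1) (hz k).1, ?_⟩
    exact mul_le_mul (mul_le_mul (hx i).2 (hy j).2 (hy j).1 hA) (hz k).2 (hz k).1
      (mul_nonneg hA hB)
  have k1 := key 0 1 2
  have k2 := key 0 2 1
  have k3 := key 1 0 2
  have k4 := key 1 2 0
  have k5 := key 2 0 1
  have k6 := key 2 1 0
  unfold d3
  rw [abs_le]
  constructor <;> linarith [k1.1, k1.2, k2.1, k2.2, k3.1, k3.2, k4.1, k4.2, k5.1, k5.2, k6.1, k6.2]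

theorem digits_zero (W : ℤ) (hW : 0 < W) (n : ℕ) (c : Fin n → ℤ) (hc : ∀ s, |c s| < W)
    (h : ∑ s, c s * W ^ (s : ℕ) = 0) : ∀ s, c s = 0 := by
  induction n with
  | zero => exact fun s => s.elim0
  | succ n ih =>
    rw [Fin.sum_univ_succ] at h
    have h1 : ∑ s : Fin n, c s.succ * W ^ ((s.succ : Fin (n + 1)) : ℕ) =
        W * ∑ s : Fin n, c s.succ * W ^ (s : ℕ) := by
      rw [mul_sum]
      refine sum_congr rfl fun s _ => ?_
      rw [Fin.val_succ]; ring
    rw [h1] at h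
    simp only [Fin.val_zero, pow_zero, mul_one] at h
    have h2 : c 0 = 0 := by
      apply Int.eq_zero_of_abs_lt_dvd (m := W) _ (hc 0)
      exact ⟨- ∑ s : Fin n, c s.succ * W ^ (s : ℕ), by linear_combination h⟩
    rw [h2, zero_add] at h
    have h3 := ih (fun s => c s.succ) (fun s => hc _) ((mul_eq_zero.1 h).resolve_left hW.ne')
    intro s
    refine Fin.cases h2 (fun s => h3 s) s

theorem sum_digits_le {D : ℕ} (c : Fin D → ℤ) (p X : ℤ) (hX : 1 ≤ X) (hc : ∀ r, 0 ≤ c r ∧ c r < p)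
    (hp : 0 ≤ p) (hDp : D * p ≤ X) (E : ℕ) :
    0 ≤ ∑ r, c r * X ^ (E * (r : ℕ)) ∧ ∑ r, c r * X ^ (E * (r : ℕ)) ≤ X ^ (E * D + 1) := by
  have hX0 : 0 < X := by linarith
  refine ⟨sum_nonneg fun r _ => mul_nonneg (hc r).1 (by positivity), ?_⟩
  have h1 : ∀ r ∈ (univ : Finset (Fin D)), c r * X ^ (E * (r : ℕ)) ≤ p * X ^ (E * D) := by
    intro r _
    apply mul_le_mul (hc r).2.le _ (by positivity) hp
    exact pow_le_pow_right₀ hX (Nat.mul_le_mul_left _ r.2.le)
  refine le_trans (sum_le_card_nsmul _ _ _ h1) ?_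
  rw [card_univ, Fintype.card_fin, nsmul_eq_mul]
  calc (D : ℤ) * (p * X ^ (E * D)) = (D * p) * X ^ (E * D) := by ring
    _ ≤ X * X ^ (E * D) := by gcongr
    _ = _ := by ring

theorem digits {α : Type} (D : ℕ) (hD : 1 ≤ D) (p : ℤ) (hp : 1 ≤ p) (f g h : Fin D → α → ℤ)
    (hb : ∀ r a, (0 ≤ f r a ∧ f r a < p) ∧ (0 ≤ g r a ∧ g r a < p) ∧ (0 ≤ h r a ∧ h r a < p))
    (hT : ∀ a : Fin 3 → α, Function.Injective a → ¬ p ∣
        ∑ r, d3 (fun j => f r (a j)) (fun j => g r (a j)) (fun j => h r (a j)))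
    (h0 : ∃ r0, ∀ a, f r0 a = 1 ∧ g r0 a = 1) (hinj : ∀ a c, (∀ r, g r a = g r c) → a = c)
    (X M N : ℤ) (hX : 24 * D ^ 3 * p ^ 3 ≤ X) (hN : 1 ≤ N)
    (hM : 24 * X * X ^ ((D + 2) * (D + 1)) * N ≤ M) :
    ∃ x y z : α → ℤ,
      (∀ a : Fin 3 → α, Function.Injective a → ∀ τ : Fin 3 → ℤ, (∀ j, 0 ≤ τ j ∧ τ j ≤ N) →
        ∀ k : ℤ, M ∣ k - d3 (fun j => x (a j)) (fun j => y (a j)) (fun j => z (a j) + τ j) →
          M ≤ 4 * X * |k|) ∧
      (∀ a, ¬ M ∣ x a) ∧ (∀ a c, a ≠ c → ¬ M ∣ x a * y c - x c * y a) := by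
  have hD' : (1 : ℤ) ≤ D := by exact_mod_cast hD
  have hD3 : (D : ℤ) ≤ D ^ 3 := le_self_pow₀ hD' (by norm_num)
  have hp3 : p ≤ p ^ 3 := le_self_pow₀ hp (by norm_num)
  have hDp3 : D * p ^ 3 ≤ (D : ℤ) ^ 3 * p ^ 3 := by gcongr
  have hDp : D * p ≤ (D : ℤ) * p ^ 3 := by gcongr
  have hDp1 : p ≤ D * p := by nlinarith
  have hX1 : 24 ≤ X := by nlinarith
  have hX0 : 0 < X := by linarith
  have hX1' : 1 ≤ X := by linarith
  set Y := X ^ ((D + 2) * (D + 1)) with hY
  have hY1 : 1 ≤ Y := one_le_pow₀ hX1'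
  have hYM : Y < M := by
    have : 24 * X * Y * 1 ≤ 24 * X * Y * N := by gcongr
    nlinarith
  have hM0 : 0 < M := by linarith
  let x : α → ℤ := fun a => ∑ r, f r a * X ^ (1 * (r : ℕ))
  let y : α → ℤ := fun a => ∑ r, g r a * X ^ ((D + 2) * (r : ℕ))
  let z : α → ℤ := fun a => ∑ t : Fin D, h t a * (M / X ^ ((t : ℕ) + (D + 2) * (t : ℕ) + 1))
  have hx : ∀ a, 0 ≤ x a ∧ x a ≤ X ^ (1 * D + 1) := fun a =>
    sum_digits_le _ p X hX1' (fun r => (hb r a).1) (by linarith) (by nlinarith) 1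
  have hy : ∀ a, 0 ≤ y a ∧ y a ≤ X ^ ((D + 2) * D + 1) := fun a =>
    sum_digits_le _ p X hX1' (fun r => (hb r a).2.1) (by linarith) (by nlinarith) (D + 2)
  have hxy : X ^ (1 * D + 1) * X ^ ((D + 2) * D + 1) = Y := by
    rw [hY, ← pow_add]; congr 1; ring
  obtain ⟨r0, hr0⟩ := h0
  have hx1 : ∀ a, 1 ≤ x a := by
    intro a
    have := single_le_sum (f := fun r : Fin D => f r a * X ^ (1 * (r : ℕ)))
      (fun r _ => mul_nonneg (hb r a).1.1 (by positivity)) (mem_univ r0)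
    refine le_trans ?_ this
    rw [(hr0 a).1, one_mul]
    exact one_le_pow₀ hX1'
  refine ⟨x, y, z, ?_, ?_, ?_⟩
  · intro a ha τ hτ k hk
    by_contra hc
    push Not at hc
    have hterm : ∀ w : Fin D × Fin D × Fin D, ∃ e η : ℤ,
        M ∣ X ^ ((w.1 : ℕ) + (D + 2) * (w.2.1 : ℕ)) *
          (M / X ^ ((w.2.2 : ℕ) + (D + 2) * (w.2.2 : ℕ) + 1)) - e ∧
        X ^ 2 * e = (if (w.1 : ℕ) + (D + 2) * (w.2.1 : ℕ) + 1 =
          (w.2.2 : ℕ) + (D + 2) * (w.2.2 : ℕ) + 1 then X * M else 0) + η ∧ |η| ≤ M := by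
      rintro ⟨r, s, t⟩
      have hr := r.2
      have hs := s.2
      have ht := t.2
      apply digit_term X M hX1'
      · refine le_trans (pow_le_pow_right₀ hX1' ?_) hYM.le
        have : (D + 2) * (s : ℕ) ≤ (D + 2) * D := Nat.mul_le_mul_left _ hs.le
        simp only
        nlinarith
      · refine le_trans (pow_le_pow_right₀ hX1' ?_) hYM.le
        have : (D + 2) * (t : ℕ) ≤ (D + 2) * D := Nat.mul_le_mul_left _ ht.le
        simp only
        nlinarith
    choose e η he1 he2 he3 using hterm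
    let Δ : Fin D × Fin D × Fin D → ℤ := fun w =>
      d3 (fun j => f w.1 (a j)) (fun j => g w.2.1 (a j)) (fun j => h w.2.2 (a j))
    have hΔ : ∀ w, |Δ w| ≤ 3 * (p * p * p) := fun w =>
      abs_d3_le (fun j => ⟨(hb _ _).1.1, (hb _ _).1.2.le⟩)
        (fun j => ⟨(hb _ _).2.1.1, (hb _ _).2.1.2.le⟩)
        (fun j => ⟨(hb _ _).2.2.1, (hb _ _).2.2.2.le⟩)
    set tail := d3 (fun j => x (a j)) (fun j => y (a j)) τ with htail
    have htb : |tail| ≤ 3 * (Y * N) := by
      have := abs_d3_le (x := fun j => x (a j)) (y := fun j => y (a j)) (z := τ)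
        (fun j => hx (a j)) (fun j => hy (a j)) hτ
      rwa [hxy] at this
    have hexp : d3 (fun j => x (a j)) (fun j => y (a j)) (fun j => z (a j) + τ j) =
        ∑ w : Fin D × Fin D × Fin D, Δ w * (X ^ ((w.1 : ℕ) + (D + 2) * (w.2.1 : ℕ)) *
          (M / X ^ ((w.2.2 : ℕ) + (D + 2) * (w.2.2 : ℕ) + 1))) + tail := by
      have e1 : (fun j => x (a j)) = ∑ r : Fin D, fun j => f r (a j) * X ^ (1 * (r : ℕ)) := by
        funext j; simp [x]
      have e2 : (fun j => y (a j)) =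
          ∑ r : Fin D, fun j => g r (a j) * X ^ ((D + 2) * (r : ℕ)) := by
        funext j; simp [y]
      have e3 : (fun j => z (a j)) = ∑ t : Fin D, fun j => h t (a j) *
          (M / X ^ ((t : ℕ) + (D + 2) * (t : ℕ) + 1)) := by
        funext j; simp [z]
      have e4 : d3 (fun j => x (a j)) (fun j => y (a j)) (fun j => z (a j) + τ j) =
          d3 (fun j => x (a j)) (fun j => y (a j)) (fun j => z (a j)) + tail := by
        simp only [htail, d3]; ring
      rw [e4]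
      congr 1
      rw [e1, e2, e3, d3_sum_left, Fintype.sum_prod_type]
      refine sum_congr rfl fun r _ => ?_
      rw [d3_sum_mid, Fintype.sum_prod_type]
      refine sum_congr rfl fun s _ => ?_
      rw [d3_sum_right]
      refine sum_congr rfl fun t _ => ?_
      simp only [Δ, d3]; ring
    set ρ := ∑ w, Δ w * e w + tail with hρ
    have hdvd : M ∣ k - ρ := by
      have h1 : M ∣ ∑ w : Fin D × Fin D × Fin D, Δ w *
          (X ^ ((w.1 : ℕ) + (D + 2) * (w.2.1 : ℕ)) *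
          (M / X ^ ((w.2.2 : ℕ) + (D + 2) * (w.2.2 : ℕ) + 1)) - e w) :=
        dvd_sum fun w _ => Dvd.dvd.mul_left (he1 w) _
      have h2 := dvd_add hk h1
      rw [hexp] at h2
      simp only [mul_sub, sum_sub_distrib] at h2
      have h3 : ∀ A B : ℤ, k - (B + tail) = k - (A + tail) + (A - B) := fun A B => by ring
      rw [hρ, h3]
      exact h2
    set T := ∑ r, d3 (fun j => f r (a j)) (fun j => g r (a j)) (fun j => h r (a j)) with hTdef
    have hT0 : T ≠ 0 := fun h0 => hT a ha (by rw [← hTdef, h0]; exact dvd_zero _)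
    have hT1 : 1 ≤ |T| := Int.one_le_abs hT0
    have hTb : |T| ≤ D * (3 * (p * p * p)) := by
      refine le_trans (abs_sum_le_sum_abs _ _) ?_
      refine le_trans (sum_le_card_nsmul _ _ _ (fun r _ => hΔ (r, r, r))) ?_
      simp
    have hdiag : ∑ w : Fin D × Fin D × Fin D, Δ w * (if (w.1 : ℕ) + (D + 2) * (w.2.1 : ℕ) + 1 =
          (w.2.2 : ℕ) + (D + 2) * (w.2.2 : ℕ) + 1 then X * M else 0) = T * (X * M) := by
      have hiff : ∀ r s t : Fin D, ((r : ℕ) + (D + 2) * (s : ℕ) + 1 =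
          (t : ℕ) + (D + 2) * (t : ℕ) + 1) ↔ (s = r ∧ t = r) := by
        intro r s t
        constructor
        · intro hh
          have hr := r.2
          have ht := t.2
          have h1 : ((r : ℕ) + (D + 2) * (s : ℕ)) % (D + 2) =
              ((t : ℕ) + (D + 2) * (t : ℕ)) % (D + 2) := by
            congr 1; omega
          rw [Nat.add_mul_mod_self_left, Nat.add_mul_mod_self_left, Nat.mod_eq_of_lt (by omega),
            Nat.mod_eq_of_lt (by omega)] at h1
          have h2 : (D + 2) * (s : ℕ) = (D + 2) * (t : ℕ) := by omega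
          have h3 : (s : ℕ) = t := Nat.eq_of_mul_eq_mul_left (by omega) h2
          exact ⟨Fin.ext (by omega), Fin.ext h1.symm⟩
        · rintro ⟨rfl, rfl⟩; rfl
      rw [Fintype.sum_prod_type, hTdef, sum_mul]
      refine sum_congr rfl fun r _ => ?_
      rw [Fintype.sum_prod_type, sum_eq_single r, sum_eq_single r]
      · simp [Δ]
      · intro t _ ht
        rw [if_neg (fun hh => ht ((hiff _ _ _).1 hh).2), mul_zero]
      · simp
      · intro s _ hs
        apply sum_eq_zero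
        intro t _
        rw [if_neg (fun hh => hs ((hiff _ _ _).1 hh).1), mul_zero]
      · simp
    have hmain : X ^ 2 * ρ = T * (X * M) + ∑ w, Δ w * η w + X ^ 2 * tail := by
      rw [hρ, mul_add, mul_sum, ← hdiag, ← sum_add_distrib]
      congr 1
      refine sum_congr rfl fun w _ => ?_
      rw [← mul_add, ← he2 w]; ring
    have herr : |∑ w, Δ w * η w| ≤ D ^ 3 * (3 * (p * p * p) * M) := by
      refine le_trans (abs_sum_le_sum_abs _ _) ?_
      have : ∀ w ∈ (univ : Finset (Fin D × Fin D × Fin D)),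
          |Δ w * η w| ≤ 3 * (p * p * p) * M := by
        intro w _
        rw [abs_mul]
        exact mul_le_mul (hΔ w) (he3 w) (abs_nonneg _) (by positivity)
      refine le_trans (sum_le_card_nsmul _ _ _ this) (le_of_eq ?_)
      simp only [card_univ, Fintype.card_prod, Fintype.card_fin, nsmul_eq_mul]
      push_cast; ring
    have herr1 : 8 * |∑ w, Δ w * η w| ≤ X * M := by
      calc _ ≤ 8 * (D ^ 3 * (3 * (p * p * p) * M)) := by gcongr
        _ = (24 * D ^ 3 * p ^ 3) * M := by ring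
        _ ≤ X * M := by gcongr
    have herr2 : 8 * |X ^ 2 * tail| ≤ X * M := by
      rw [abs_mul, abs_of_pos (by positivity : 0 < X ^ 2)]
      calc _ ≤ 8 * (X ^ 2 * (3 * (Y * N))) := by gcongr
        _ = X * (24 * X * Y * N) := by ring
        _ ≤ X * M := by gcongr
    have hA : 4 * |X * ρ - T * M| ≤ M := by
      have h1 : X * (X * ρ - T * M) = ∑ w, Δ w * η w + X ^ 2 * tail := by
        linear_combination hmain
      have h2 : X * |X * ρ - T * M| ≤ |∑ w, Δ w * η w| + |X ^ 2 * tail| := by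
        rw [← abs_of_pos hX0, ← abs_mul, abs_of_pos hX0, h1]
        exact abs_add_le _ _
      have h3 : X * (4 * |X * ρ - T * M|) ≤ X * M := by linarith
      exact le_of_mul_le_mul_left h3 hX0
    have hT8 : 8 * |T| ≤ X := by nlinarith
    have hXρ : X * |ρ| = |X * ρ| := by rw [abs_mul, abs_of_pos hX0]
    have hTM : |T * M| = |T| * M := by rw [abs_mul, abs_of_pos hM0]
    have hB : 4 * (X * |ρ|) ≤ 4 * |T| * M + M := by
      have := abs_sub_abs_le_abs_sub (X * ρ) (T * M)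
      rw [hXρ]; linarith
    have hC : 4 * |ρ| ≤ M := by
      have : X * (4 * |ρ|) ≤ X * M := by nlinarith
      exact le_of_mul_le_mul_left this hX0
    have hk4 : 4 * |k| < M := by nlinarith [abs_nonneg k]
    have hkρ : k - ρ = 0 := by
      apply Int.eq_zero_of_abs_lt_dvd hdvd
      have := abs_sub k ρ
      linarith [abs_nonneg k, abs_nonneg ρ]
    have hkρ' : k = ρ := by linarith
    rw [hkρ'] at hc
    have := abs_sub_abs_le_abs_sub (T * M) (X * ρ)
    rw [abs_sub_comm, hTM, ← hXρ] at this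
    nlinarith
  · intro a hdvd
    have h1 := Int.le_of_dvd (by linarith [hx1 a]) hdvd
    have h2 : X ^ (1 * D + 1) ≤ Y := pow_le_pow_right₀ hX1' (by nlinarith)
    linarith [(hx a).2]
  · intro a c hac hdvd
    have hb1 : ∀ a c, 0 ≤ x a * y c ∧ x a * y c ≤ Y := fun a c =>
      ⟨mul_nonneg (hx a).1 (hy c).1, by
        rw [← hxy]; exact mul_le_mul (hx a).2 (hy c).2 (hy c).1 (by positivity)⟩
    have hz : x a * y c - x c * y a = 0 := by
      apply Int.eq_zero_of_abs_lt_dvd hdvd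
      rw [abs_lt]
      constructor <;> linarith [(hb1 a c).1, (hb1 a c).2, (hb1 c a).1, (hb1 c a).2]
    have h1 := digits_zero (X ^ (D + 2)) (by positivity) D (fun s => x a * g s c - x c * g s a)
      (fun s => by
        have k1 : ∀ a c, 0 ≤ x a * g s c ∧ x a * g s c < X ^ (D + 2) := fun a c =>
          ⟨mul_nonneg (hx a).1 (hb s c).2.1.1, by
            calc x a * g s c ≤ X ^ (1 * D + 1) * g s c :=
                  mul_le_mul_of_nonneg_right (hx a).2 (hb s c).2.1.1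
              _ < X ^ (1 * D + 1) * X := by
                  apply mul_lt_mul_of_pos_left _ (by positivity)
                  nlinarith [(hb s c).2.1.2]
              _ = X ^ (D + 2) := by ring⟩
        rw [abs_lt]
        constructor <;> linarith [(k1 a c).1, (k1 a c).2, (k1 c a).1, (k1 c a).2])
      (by
        rw [← hz]
        simp only [y, mul_sum, ← sum_sub_distrib]
        refine sum_congr rfl fun s _ => ?_
        rw [pow_mul]; ring)
    have h2 := h1 r0
    simp only [(hr0 a).2, (hr0 c).2, mul_one] at h2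
    apply hac
    apply hinj
    intro r
    have h3 := h1 r
    have h4 : x a ≠ 0 := by linarith [hx1 a]
    apply mul_left_cancel₀ h4
    linear_combination (g r a) * h2 - h3

end Crest.Agent.R32
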