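import Crest.Agent.R32.Basic

set_option autoImplicit false

open Finset

namespace Crest.Agent.R32

section Rk
variable {α K : Type} [CommRing K]

/-- tensor rank bound for a function of three variables -/
def Rk (T : α → α → α → K) (d : ℕ) : Prop :=
  ∃ (ι : Type) (_ : Fintype ι), Fintype.card ι = d ∧ ∃ f g h : ι → α → K,
    ∀ a b c, T a b c = ∑ r, f r a * g r b * h r c

theorem Rk.congr {T T' : α → α → α → K} {d d' : ℕ} (h : Rk T d) (hT : ∀ a b c, T' a b c = T a b c)
    (hd : d = d') : Rk T' d' := by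
  obtain ⟨ι, _, hι, f, g, k, hk⟩ := h
  exact ⟨ι, inferInstance, hι.trans hd, f, g, k, fun a b c => (hT a b c).trans (hk a b c)⟩

theorem rk_one (φ ψ χ : α → K) : Rk (fun a b c => φ a * ψ b * χ c) 1 :=
  ⟨Unit, inferInstance, rfl, fun _ => φ, fun _ => ψ, fun _ => χ, fun a b c => by simp⟩

theorem Rk.add {T T' : α → α → α → K} {d d' : ℕ} (h : Rk T d) (h' : Rk T' d') :
    Rk (fun a b c => T a b c + T' a b c) (d + d') := by
  obtain ⟨ι, _, hι, f, g, k, hk⟩ := h
  obtain ⟨ι', _, hι', f', g', k', hk'⟩ := h'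
  refine ⟨ι ⊕ ι', inferInstance, by simp [hι, hι'], Sum.elim f f', Sum.elim g g', Sum.elim k k',
    fun a b c => ?_⟩
  simp [hk, hk', Fintype.sum_sum_type]

theorem Rk.mul {T T' : α → α → α → K} {d d' : ℕ} (h : Rk T d) (h' : Rk T' d') :
    Rk (fun a b c => T a b c * T' a b c) (d * d') := by
  obtain ⟨ι, _, hι, f, g, k, hk⟩ := h
  obtain ⟨ι', _, hι', f', g', k', hk'⟩ := h'
  refine ⟨ι × ι', inferInstance, by simp [hι, hι'], fun r a => f r.1 a * f' r.2 a,
    fun r a => g r.1 a * g' r.2 a, fun r a => k r.1 a * k' r.2 a, fun a b c => ?_⟩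
  simp only [hk, hk', Fintype.sum_prod_type, sum_mul_sum]
  refine sum_congr rfl fun _ _ => sum_congr rfl fun _ _ => by ring

theorem Rk.sum {κ : Type} (s : Finset κ) {T : κ → α → α → α → K} {d : ℕ}
    (h : ∀ i, Rk (T i) d) : Rk (fun a b c => ∑ i ∈ s, T i a b c) (s.card * d) := by
  classical
  induction s using Finset.induction_on with
  | empty =>
    exact ⟨Empty, inferInstance, by simp, fun r => r.elim, fun r => r.elim, fun r => r.elim,
      fun a b c => by simp⟩
  | insert i s hi ih =>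
    refine ((h i).add ih).congr (fun a b c => by rw [sum_insert hi]) ?_
    rw [card_insert_of_notMem hi]; ring

theorem Rk.prod {κ : Type} (s : Finset κ) {T : κ → α → α → α → K} {d : ℕ}
    (h : ∀ i, Rk (T i) d) : Rk (fun a b c => ∏ i ∈ s, T i a b c) (d ^ s.card) := by
  classical
  induction s using Finset.induction_on with
  | empty =>
    exact (rk_one (fun _ => 1) (fun _ => 1) (fun _ => 1)).congr (fun a b c => by simp) (by simp)
  | insert i s hi ih =>
    refine ((h i).mul ih).congr (fun a b c => by rw [prod_insert hi]) ?_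
    rw [card_insert_of_notMem hi]; ring

end Rk

section Norm
variable {K F : Type} [Field K] [Field F] [Algebra K F]

theorem rk_norm_sub (b : Module.Basis (Fin 5) K F) (x y : F → F → F → F)
    (hx : ∀ φ : F → K, Rk (fun a b c => φ (x a b c)) 1)
    (hy : ∀ φ : F → K, Rk (fun a b c => φ (y a b c)) 1) :
    Rk (fun a b c => Algebra.norm K (x a b c - y a b c)) 3840 := by
  have h1 : ∀ σ : Equiv.Perm (Fin 5), Rk (fun a b' c => ((Equiv.Perm.sign σ : ℤ) : K) *
      ∏ i, (Algebra.leftMulMatrix b (x a b' c - y a b' c)) (σ i) i) 32 := by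
    intro σ
    have h2 : ∀ i : Fin 5, Rk (fun a b' c =>
        (Algebra.leftMulMatrix b (x a b' c - y a b' c)) (σ i) i) 2 := by
      intro i
      refine ((hx (fun t => Algebra.leftMulMatrix b t (σ i) i)).add
        (hy (fun t => - Algebra.leftMulMatrix b t (σ i) i))).congr (fun a b' c => ?_) rfl
      rw [map_sub, Matrix.sub_apply]; ring
    refine ((rk_one (fun _ => ((Equiv.Perm.sign σ : ℤ) : K)) (fun _ => 1) (fun _ => 1)).mul
      (Rk.prod univ h2)).congr (fun a b' c => by simp) (by simp)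
  refine (Rk.sum univ h1).congr (fun a b' c => ?_) ?_
  · rw [Algebra.norm_eq_matrix_det b, Matrix.det_apply']
  · simp [Fintype.card_perm, Nat.factorial]

theorem norm_sub_comm (b : Module.Basis (Fin 5) K F) (x y : F) :
    Algebra.norm K (y - x) = - Algebra.norm K (x - y) := by
  have h1 : y - x = algebraMap K F (-1) * (x - y) := by simp
  rw [h1, map_mul, Algebra.norm_algebraMap_of_basis b]
  simp only [Fintype.card_fin]
  ring

theorem exists_dets (b : Module.Basis (Fin 5) K F) :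
    ∃ (ι : Type) (_ : Fintype ι), Fintype.card ι = 3840 ^ 3 ∧ ∃ f g h : ι → F → K,
      ∀ a : Fin 3 → F, ∑ r, d3 (fun j => f r (a j)) (fun j => g r (a j)) (fun j => h r (a j)) =
        6 * Algebra.norm K ((a 0 - a 1) * (a 1 - a 2) * (a 2 - a 0)) := by
  have r1 : ∀ φ : F → K, Rk (fun a b c : F => φ a) 1 := fun φ =>
    (rk_one φ (fun _ => 1) (fun _ => 1)).congr (fun _ _ _ => by simp) rfl
  have r2 : ∀ φ : F → K, Rk (fun a b c : F => φ b) 1 := fun φ =>
    (rk_one (fun _ => 1) φ (fun _ => 1)).congr (fun _ _ _ => by simp) rfl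
  have r3 : ∀ φ : F → K, Rk (fun a b c : F => φ c) 1 := fun φ =>
    (rk_one (fun _ => 1) (fun _ => 1) φ).congr (fun _ _ _ => by simp) rfl
  obtain ⟨ι, _, hι, f, g, h, hT⟩ :=
    ((rk_norm_sub b _ _ r1 r2).mul (rk_norm_sub b _ _ r2 r3)).mul (rk_norm_sub b _ _ r3 r1)
  refine ⟨ι, inferInstance, by rw [hι]; norm_num, f, g, h, fun a => ?_⟩
  simp only [d3, sum_add_distrib, sum_sub_distrib, ← hT, map_mul]
  rw [norm_sub_comm b (a 0) (a 1), norm_sub_comm b (a 1) (a 2), norm_sub_comm b (a 2) (a 0)]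
  ring

end Norm

theorem exists_classes : ∃ D : ℕ, 1 ≤ D ∧ ∀ p : ℕ, p.Prime → 5 ≤ p →
    ∃ f g h : Fin D → Fin (p ^ 5) → ℤ,
      (∀ r a, (0 ≤ f r a ∧ f r a < p) ∧ (0 ≤ g r a ∧ g r a < p) ∧ (0 ≤ h r a ∧ h r a < p)) ∧
      (∀ a : Fin 3 → Fin (p ^ 5), Function.Injective a → ¬ (p : ℤ) ∣
        ∑ r, d3 (fun j => f r (a j)) (fun j => g r (a j)) (fun j => h r (a j))) ∧
      (∃ r0, ∀ a, f r0 a = 1 ∧ g r0 a = 1) ∧ (∀ a c, (∀ r, g r a = g r c) → a = c) := by
  refine ⟨3840 ^ 3 + (1 + 5), by norm_num, fun p hp hp5 => ?_⟩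
  haveI : Fact p.Prime := ⟨hp⟩
  have hfr : Module.finrank (ZMod p) (GaloisField p 5) = 5 := GaloisField.finrank p (by norm_num)
  let b : Module.Basis (Fin 5) (ZMod p) (GaloisField p 5) := Module.finBasisOfFinrankEq _ _ hfr
  obtain ⟨ι, _, hι, f, g, h, hT⟩ := exists_dets b
  have hcard : Nat.card (GaloisField p 5) = p ^ 5 := GaloisField.card p 5 (by norm_num)
  let e : Fin (p ^ 5) ≃ GaloisField p 5 := (Finite.equivFinOfCardEq hcard).symm
  let E : Fin (3840 ^ 3 + (1 + 5)) ≃ ι ⊕ (Unit ⊕ Fin 5) :=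
    (Fintype.equivFinOfCardEq (by simp [hι])).symm
  let f' : ι ⊕ (Unit ⊕ Fin 5) → GaloisField p 5 → ZMod p :=
    Sum.elim f (Sum.elim (fun _ _ => 1) (fun _ _ => 0))
  let g' : ι ⊕ (Unit ⊕ Fin 5) → GaloisField p 5 → ZMod p :=
    Sum.elim g (Sum.elim (fun _ _ => 1) (fun i a => b.repr a i))
  let h' : ι ⊕ (Unit ⊕ Fin 5) → GaloisField p 5 → ZMod p :=
    Sum.elim h (fun _ _ => 0)
  have hv : ∀ x : ZMod p, (0 : ℤ) ≤ (x.val : ℤ) ∧ (x.val : ℤ) < p := fun x =>
    ⟨by positivity, by exact_mod_cast ZMod.val_lt x⟩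
  refine ⟨fun r a => ((f' (E r) (e a)).val : ℤ), fun r a => ((g' (E r) (e a)).val : ℤ),
    fun r a => ((h' (E r) (e a)).val : ℤ), fun r a => ⟨hv _, hv _, hv _⟩, ?_, ?_, ?_⟩
  · intro a ha hdvd
    rw [← ZMod.intCast_zmod_eq_zero_iff_dvd] at hdvd
    have h1 : ∑ r, d3 (fun j => f' (E r) (e (a j))) (fun j => g' (E r) (e (a j)))
        (fun j => h' (E r) (e (a j))) = 0 := by
      rw [← hdvd]
      simp [d3]
    rw [Equiv.sum_comp E (fun r => d3 (fun j => f' r (e (a j))) (fun j => g' r (e (a j)))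
        (fun j => h' r (e (a j)))), Fintype.sum_sum_type] at h1
    have h2 : ∑ r : Unit ⊕ Fin 5, d3 (fun j => f' (Sum.inr r) (e (a j)))
        (fun j => g' (Sum.inr r) (e (a j))) (fun j => h' (Sum.inr r) (e (a j))) = 0 := by
      apply sum_eq_zero
      intro r _
      simp [d3, h']
    rw [h2, add_zero] at h1
    have h3 := hT (fun j => e (a j))
    simp only [f', g', h', Sum.elim_inl] at h1
    rw [h1] at h3
    have h6 : (6 : ZMod p) ≠ 0 := by
      intro h6
      have : ((6 : ℕ) : ZMod p) = 0 := by exact_mod_cast h6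
      rw [ZMod.natCast_eq_zero_iff] at this
      have h7 : p ∣ 2 * 3 := this
      rcases (Nat.Prime.dvd_mul hp).1 h7 with h8 | h8
      · have := Nat.le_of_dvd (by norm_num) h8; omega
      · have := Nat.le_of_dvd (by norm_num) h8; omega
    have h4 := (mul_eq_zero.1 h3.symm).resolve_left h6
    rw [Algebra.norm_eq_zero_iff] at h4
    have hne : ∀ i j, i ≠ j → e (a i) - e (a j) ≠ 0 := fun i j hij h =>
      hij (ha (e.injective (sub_eq_zero.1 h)))
    exact mul_ne_zero (mul_ne_zero (hne 0 1 (by decide)) (hne 1 2 (by decide)))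
      (hne 2 0 (by decide)) h4
  · refine ⟨E.symm (Sum.inr (Sum.inl ())), fun a => ?_⟩
    simp [f', g', ZMod.val_one]
  · intro a c hac
    apply e.injective
    apply b.repr.injective
    ext i
    have := hac (E.symm (Sum.inr (Sum.inr i)))
    simp only [Equiv.apply_symm_apply, g', Sum.elim_inr, Nat.cast_inj] at this
    exact ZMod.val_injective p this

end Crest.Agent.R32
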