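import Crest.Agent.R32.Main
import Crest.Agent.R32.Rank
import Crest.Agent.R32.Digits

set_option autoImplicit false

open Finset

namespace Crest.Agent.R32

/-- the conclusion for `n` points with area bound `A` -/
def Good (n : ℕ) (A : ℝ) : Prop :=
  ∃ P : Finset (ℝ × ℝ), P.card = n ∧
    (∀ p ∈ P, 0 ≤ p.1 ∧ p.1 ≤ 1 ∧ 0 ≤ p.2 ∧ p.2 ≤ 1) ∧
    ∀ p ∈ P, ∀ q ∈ P, ∀ r ∈ P, p ≠ q → p ≠ r → q ≠ r →
      A ≤ |(q.1 - p.1) * (r.2 - p.2) - (q.2 - p.2) * (r.1 - p.1)| / 2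

theorem Good.mono {n : ℕ} {A B : ℝ} (h : Good n A) (hAB : B ≤ A) : Good n B := by
  obtain ⟨P, h1, h2, h3⟩ := h
  exact ⟨P, h1, h2, fun p hp q hq r hr a b c => le_trans hAB (h3 p hp q hq r hr a b c)⟩

theorem good_of_vectors (n : ℕ) (hn : 3 ≤ n) (R K : ℝ) (hR : 0 < R) (hK : 0 < K)
    (v : ℕ → Fin 3 → ℝ) (J : Finset ℕ) (hJ : n ≤ J.card)
    (hv : ∀ i, (0 ≤ v i 0 ∧ v i 0 ≤ R) ∧ (0 ≤ v i 1 ∧ v i 1 ≤ R) ∧ (R ≤ v i 2 ∧ v i 2 ≤ 2 * R))
    (hd : ∀ i ∈ J, ∀ j ∈ J, ∀ l ∈ J, i ≠ j → i ≠ l → j ≠ l → K ≤ |d3 (v i) (v j) (v l)|) :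
    Good n (K / (16 * R ^ 3)) := by
  classical
  obtain ⟨J', hJ', hcard⟩ := exists_subset_card_eq hJ
  let pt : ℕ → ℝ × ℝ := fun i => (v i 0 / v i 2, v i 1 / v i 2)
  have hz : ∀ i, 0 < v i 2 := fun i => lt_of_lt_of_le hR (hv i).2.2.1
  have harea : ∀ i ∈ J, ∀ j ∈ J, ∀ l ∈ J, i ≠ j → i ≠ l → j ≠ l → K / (16 * R ^ 3) ≤
      |((pt j).1 - (pt i).1) * ((pt l).2 - (pt i).2) -
        ((pt j).2 - (pt i).2) * ((pt l).1 - (pt i).1)| / 2 := by
    intro i hi j hj l hl hij hil hjl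
    have a1 := hz i
    have a2 := hz j
    have a3 := hz l
    have e : ((pt j).1 - (pt i).1) * ((pt l).2 - (pt i).2) -
        ((pt j).2 - (pt i).2) * ((pt l).1 - (pt i).1) =
          d3 (v i) (v j) (v l) / (v i 2 * v j 2 * v l 2) := by
      simp only [pt, d3]
      field_simp
      ring
    rw [e, abs_div, abs_of_pos (by positivity : 0 < v i 2 * v j 2 * v l 2), div_div]
    apply div_le_div₀ (abs_nonneg _) (hd i hi j hj l hl hij hil hjl) (by positivity)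
    have b1 := (hv i).2.2.2
    have b2 := (hv j).2.2.2
    have b3 := (hv l).2.2.2
    calc v i 2 * v j 2 * v l 2 * 2 ≤ (2 * R) * (2 * R) * (2 * R) * 2 := by gcongr
      _ = _ := by ring
  have hinj : Set.InjOn pt J' := by
    intro i hi j hj hij
    by_contra hne
    obtain ⟨l, hl, hl'⟩ : ∃ l ∈ J', l ∉ ({i, j} : Finset ℕ) := by
      apply exists_mem_notMem_of_card_lt_card
      have := card_le_two (a := i) (b := j)
      omega
    simp only [mem_insert, mem_singleton, not_or] at hl'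
    have := harea i (hJ' hi) j (hJ' hj) l (hJ' hl) hne (Ne.symm hl'.1) (Ne.symm hl'.2)
    rw [← hij] at this
    simp only [sub_self, zero_mul, abs_zero, zero_div] at this
    have h2 : 0 < K / (16 * R ^ 3) := by positivity
    linarith
  refine ⟨J'.image pt, by rw [card_image_of_injOn hinj, hcard], ?_, ?_⟩
  · intro p hp
    obtain ⟨i, -, rfl⟩ := mem_image.1 hp
    obtain ⟨⟨a1, a2⟩, ⟨a3, a4⟩, a5, a6⟩ := hv i
    have := hz i
    refine ⟨div_nonneg a1 this.le, ?_, div_nonneg a3 this.le, ?_⟩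
    · exact (div_le_one this).2 (le_trans a2 a5)
    · exact (div_le_one this).2 (le_trans a4 a5)
  · intro p hp q hq r hr hpq hpr hqr
    obtain ⟨i, hi, rfl⟩ := mem_image.1 hp
    obtain ⟨j, hj, rfl⟩ := mem_image.1 hq
    obtain ⟨l, hl, rfl⟩ := mem_image.1 hr
    exact harea i (hJ' hi) j (hJ' hj) l (hJ' hl) (fun h => hpq (by rw [h]))
      (fun h => hpr (by rw [h])) (fun h => hqr (by rw [h]))

theorem choose_q (c W n : ℕ) (hc : 1 ≤ c) (hW : 1 ≤ W) (hn : 8 * W ^ 2 ≤ n) (hcW : 64 * c ≤ W) :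
    ∃ q : ℕ, q.Prime ∧ q ≠ 2 ∧ c * n ^ 2 ≤ W * q ^ 3 ∧ W * q ^ 3 ≤ 64 * c * n ^ 2 ∧
      2 * n ≤ q ^ 2 ∧ q ≤ n := by
  classical
  have hex : ∃ Q : ℕ, c * n ^ 2 ≤ W * Q ^ 3 := by
    refine ⟨c * n ^ 2, ?_⟩
    calc c * n ^ 2 ≤ (c * n ^ 2) ^ 3 := Nat.le_self_pow (by norm_num) _
      _ ≤ W * (c * n ^ 2) ^ 3 := Nat.le_mul_of_pos_left _ hW
  set Q := Nat.find hex with hQ
  have h1 : c * n ^ 2 ≤ W * Q ^ 3 := Nat.find_spec hex
  have hn2 : n ≤ n ^ 2 := Nat.le_self_pow (by norm_num) _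
  have hW2 : W ≤ W ^ 2 := Nat.le_self_pow (by norm_num) _
  have hcn : n ^ 2 ≤ c * n ^ 2 := Nat.le_mul_of_pos_left _ hc
  have hQ2 : 2 ≤ Q := by
    by_contra hc'
    have : Q ^ 3 ≤ 1 := by
      have : Q ≤ 1 := by omega
      calc Q ^ 3 ≤ 1 ^ 3 := Nat.pow_le_pow_left this 3
        _ = 1 := by norm_num
    have : W * Q ^ 3 ≤ W := by nlinarith
    omega
  have h2 : W * (Q - 1) ^ 3 < c * n ^ 2 := not_le.1 (Nat.find_min hex (by omega))
  obtain ⟨q, hq, hq1, hq2⟩ := Nat.exists_prime_lt_and_le_two_mul Q (by omega)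
  have h3 : W * q ^ 3 ≤ 64 * c * n ^ 2 := by
    have : q ≤ 4 * (Q - 1) := by omega
    calc W * q ^ 3 ≤ W * (4 * (Q - 1)) ^ 3 := by gcongr
      _ = 64 * (W * (Q - 1) ^ 3) := by ring
      _ ≤ 64 * (c * n ^ 2) := by gcongr
      _ = _ := by ring
  have h4 : c * n ^ 2 ≤ W * q ^ 3 := le_trans h1 (by gcongr)
  have hn0 : 0 < n := by nlinarith
  refine ⟨q, hq, by omega, h4, h3, ?_, ?_⟩
  · by_contra hc'
    push Not at hc'
    have a1 : (q ^ 2) ^ 3 < (2 * n) ^ 3 := Nat.pow_lt_pow_left hc' (by norm_num)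
    have a2 : (n ^ 2) ^ 2 ≤ (W * q ^ 3) ^ 2 := Nat.pow_le_pow_left (le_trans hcn h4) 2
    have a3 : n ^ 3 * n < n ^ 3 * (8 * W ^ 2) := by
      calc n ^ 3 * n = (n ^ 2) ^ 2 := by ring
        _ ≤ (W * q ^ 3) ^ 2 := a2
        _ = W ^ 2 * (q ^ 2) ^ 3 := by ring
        _ < W ^ 2 * (2 * n) ^ 3 := by gcongr
        _ = _ := by ring
    have := Nat.lt_of_mul_lt_mul_left a3
    omega
  · have a1 : W * q ^ 3 ≤ W * n ^ 3 := by
      calc W * q ^ 3 ≤ 64 * c * n ^ 2 := h3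
        _ ≤ W * n ^ 2 := by gcongr
        _ ≤ W * n ^ 3 := Nat.mul_le_mul_left _ (Nat.pow_le_pow_right hn0 (by norm_num))
    have a2 := Nat.le_of_mul_le_mul_left a1 hW
    exact (Nat.pow_le_pow_iff_left (by norm_num)).1 a2

theorem exists_points : ∃ e p0 : ℕ, ∃ C : ℝ, 0 < e ∧ 0 < C ∧ ∀ p n : ℕ, p.Prime → p0 ≤ p →
    p ^ e ≤ n → n ≤ (2 * p) ^ e → Good n (p / (C * (n : ℝ) ^ 2)) := by
  obtain ⟨D, hD, hcls⟩ := exists_classes
  set G := (D + 2) * (D + 1) with hG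
  set e := 4 * (8 * (G + 2) + 1) + 11 with he
  set c1 : ℕ := 81920 * 80621568 with hc1
  refine ⟨e, 24 * D ^ 3 + 64 * c1 * 20 * e + 8, 64 * (24 * D ^ 3) * 64 * c1 * 20 * e, by omega,
    by positivity, fun p n hp hp0 hn1 hn2 => ?_⟩
  have hp8 : 8 ≤ p := le_trans (Nat.le_add_left _ _) hp0
  have hpD : 24 * D ^ 3 ≤ p :=
    le_trans (le_trans (Nat.le_add_right _ _) (Nat.le_add_right _ _)) hp0
  have hpc : 64 * c1 * 20 * e ≤ p :=
    le_trans (le_trans (Nat.le_add_left _ _) (Nat.le_add_right _ _)) hp0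
  clear hp0
  obtain ⟨f, g, h, hb, hT, h0, hinj⟩ := hcls p hp (by omega)
  set X : ℕ := 24 * D ^ 3 * p ^ 3 with hX
  have hD3 : 1 ≤ D ^ 3 := Nat.one_le_pow _ _ hD
  have hp3 : 1 ≤ p ^ 3 := Nat.one_le_pow _ _ (by omega)
  have hX24 : 24 ≤ X := by rw [hX]; nlinarith
  have hXp : X ≤ p ^ 4 := by
    calc X ≤ p * p ^ 3 := by rw [hX]; gcongr
      _ = _ := by ring
  set Z : ℕ := 24 * X * X ^ G with hZ
  have hZ1 : 1 ≤ Z := by
    have : 1 ≤ X ^ G := Nat.one_le_pow _ _ (by omega)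
    rw [hZ]; nlinarith
  have hZp : Z ≤ p ^ (4 * (G + 2)) := by
    calc Z ≤ X * X * X ^ G := by rw [hZ]; gcongr
      _ = X ^ (G + 2) := by ring
      _ ≤ (p ^ 4) ^ (G + 2) := by gcongr
      _ = _ := by rw [← pow_mul]
  obtain ⟨M, hM, hM1, hM2⟩ := Nat.exists_prime_lt_and_le_two_mul (4 * Z ^ 2) (by positivity)
  have hMp : M ≤ p ^ (8 * (G + 2) + 1) := by
    calc M ≤ 8 * Z ^ 2 := by omega
      _ ≤ p * (p ^ (4 * (G + 2))) ^ 2 := by gcongr
      _ = _ := by ring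
  have hZ2 : Z ≤ Z ^ 2 := Nat.le_self_pow (by norm_num) _
  obtain ⟨x, y, z, h1, h2, h3⟩ := digits D hD (p : ℤ) (by exact_mod_cast hp.one_le) f g h hb hT h0
    hinj X M (3 * Z : ℕ) (by rw [hX]; push_cast; exact le_rfl) (by exact_mod_cast (by omega))
    (by
      have : Z * (3 * Z) ≤ M := by nlinarith
      rw [hZ] at this
      rw [← hG, hZ]
      exact_mod_cast this)
  set W := p ^ 5 * M ^ 2 with hW
  have hM0 := hM.pos
  have hp5 : p ^ 2 ≤ p ^ 5 := Nat.pow_le_pow_right (by omega) (by norm_num)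
  have hM2' : M ≤ M ^ 2 := Nat.le_self_pow (by norm_num) _
  have hWp : p ^ 5 ≤ W := Nat.le_mul_of_pos_right _ (by positivity)
  have hWM : M ^ 2 ≤ W := Nat.le_mul_of_pos_left _ (by positivity)
  have hWn : 8 * W ^ 2 ≤ n := by
    calc 8 * W ^ 2 ≤ p * (p ^ 5 * (p ^ (8 * (G + 2) + 1)) ^ 2) ^ 2 := by rw [hW]; gcongr
      _ = p ^ e := by rw [he]; ring
      _ ≤ n := hn1
  have hW1 : 1 ≤ W := by nlinarith
  have hW2 : W ≤ W ^ 2 := Nat.le_self_pow (by norm_num) _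
  obtain ⟨q, hq, hq2, hq3, hq4, hq5, hq6⟩ := choose_q (c1 * (20 * e * p)) W n
    (Nat.one_le_iff_ne_zero.2 (by positivity)) hW1 hWn (by
      calc 64 * (c1 * (20 * e * p)) = (64 * c1 * 20 * e) * p := by ring
        _ ≤ p * p := by gcongr
        _ = p ^ 2 := by ring
        _ ≤ W := le_trans hp5 hWp)
  have hMq : M < q := by
    have : M ^ 2 < q ^ 2 := by omega
    exact lt_of_pow_lt_pow_left₀ 2 (by positivity) this
  haveI : Fact M.Prime := ⟨hM⟩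
  haveI : Fact q.Prime := ⟨hq⟩
  have hlog : Nat.log 2 (8 * (2 * (M * q)) ^ 2) + 1 ≤ 20 * e * p := by
    have a1 : 2 * p ≤ 2 ^ (p + 1) := by
      have := Nat.lt_two_pow_self (n := p)
      rw [pow_succ]; omega
    have a2 : 8 * (2 * (M * q)) ^ 2 ≤ 2 ^ (5 + 4 * e * (p + 1)) := by
      calc 8 * (2 * (M * q)) ^ 2 ≤ 8 * (2 * (n * n)) ^ 2 := by gcongr; omega
        _ = 2 ^ 5 * n ^ 4 := by ring
        _ ≤ 2 ^ 5 * ((2 ^ (p + 1)) ^ e) ^ 4 := by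
            gcongr
            exact le_trans hn2 (by gcongr)
        _ = _ := by rw [← pow_mul, ← pow_mul, ← pow_add]; congr 1; ring
    have a3 := Nat.log_mono_right (b := 2) a2
    rw [Nat.log_pow (by norm_num)] at a3
    have he1 : 1 ≤ e := by omega
    nlinarith
  obtain ⟨v, J, hJ, hv, hd⟩ := exists_good M q (p ^ 5) (3 * Z) n hq2 hMq.ne X
    (by exact_mod_cast (by omega)) (by positivity) (by omega) (by omega) (by nlinarith) x y z
    h1 h2 h3 hq5 (by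
      calc p ^ 5 * (3 * Z) ≤ p ^ 5 * M ^ 2 := by gcongr; omega
        _ ≤ _ := by omega) (by
      have a1 : ((Nat.log 2 (8 * (2 * (M * q)) ^ 2) : ℕ) : ℝ) + 1 ≤ 20 * e * p := by
        exact_mod_cast hlog
      have a2 : ((c1 * (20 * e * p) * n ^ 2 : ℕ) : ℝ) ≤ (W * q ^ 3 : ℕ) := by exact_mod_cast hq3
      rw [hW] at a2
      have a3 : 81920 * Cst = (c1 : ℝ) := by rw [hc1]; unfold Cst; norm_num
      rw [a3]
      push_cast at a2 ⊢
      refine le_trans ?_ a2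
      gcongr)
  have hM0' : (0 : ℝ) < M := by exact_mod_cast hM0
  have hq0' : (0 : ℝ) < q := by exact_mod_cast hq.pos
  have hX0' : (0 : ℝ) < X := by exact_mod_cast (by omega : 0 < X)
  have hp0' : (0 : ℝ) < p := by exact_mod_cast hp.pos
  have hn0' : (0 : ℝ) < n := by exact_mod_cast (by omega : 0 < n)
  have hD0' : (0 : ℝ) < D := by exact_mod_cast hD
  have he0' : (0 : ℝ) < e := by exact_mod_cast (by omega : 0 < e)
  have hc0' : (0 : ℝ) < c1 := by rw [hc1]; positivity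
  have := good_of_vectors n (by omega) ((M : ℝ) * q) (M / (4 * X)) (by positivity) (by positivity)
    (fun i r => (v i r : ℝ)) J hJ (fun i => by
      obtain ⟨⟨a1, a2⟩, ⟨a3, a4⟩, a5, a6⟩ := hv i
      exact ⟨⟨by exact_mod_cast a1, by exact_mod_cast a2.le⟩,
        ⟨by exact_mod_cast a3, by exact_mod_cast a4.le⟩, by exact_mod_cast a5,
        by exact_mod_cast a6.le⟩) (fun i hi j hj l hl hij hil hjl => by
      have a1 := hd i hi j hj l hl hij hil hjl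
      have a2 : d3 (fun r => (v i r : ℝ)) (fun r => (v j r : ℝ)) (fun r => (v l r : ℝ)) =
          ((d3 (v i) (v j) (v l) : ℤ) : ℝ) := by simp [d3]
      rw [a2, div_le_iff₀ (by positivity)]
      have a3 : (M : ℝ) ≤ 4 * X * |((d3 (v i) (v j) (v l) : ℤ) : ℝ)| := by exact_mod_cast a1
      linarith)
  refine this.mono ?_
  have a2 : ((W * q ^ 3 : ℕ) : ℝ) ≤ (64 * (c1 * (20 * e * p)) * n ^ 2 : ℕ) := by exact_mod_cast hq4
  rw [hW] at a2
  push_cast at a2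
  have hX' : (X : ℝ) = 24 * (D : ℝ) ^ 3 * (p : ℝ) ^ 3 := by rw [hX]; push_cast; ring
  rw [div_div, div_le_div_iff₀ (by positivity) (by positivity), hX']
  calc (p : ℝ) * (4 * (24 * (D : ℝ) ^ 3 * (p : ℝ) ^ 3) * (16 * ((M : ℝ) * q) ^ 3))
      = ((p : ℝ) ^ 5 * (M : ℝ) ^ 2 * (q : ℝ) ^ 3) * (64 * (24 * (D : ℝ) ^ 3) * M / p) := by
        field_simp; ring
    _ ≤ (64 * (c1 * (20 * e * p)) * (n : ℝ) ^ 2) * (64 * (24 * (D : ℝ) ^ 3) * M / p) := by gcongr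
    _ = _ := by field_simp

theorem heilbronn : ∃ η : ℝ, 0 < η ∧ ∃ c : ℝ, 0 < c ∧ ∃ n₀ : ℕ, ∀ n : ℕ, n₀ ≤ n →
    Good n (c * (n : ℝ) ^ (-2 + η)) := by
  classical
  obtain ⟨e, p0, C, he, hC, h⟩ := exists_points
  have he' : (0 : ℝ) < e := by exact_mod_cast he
  refine ⟨1 / e, by positivity, 1 / (2 * C), by positivity, (2 * p0 + 2) ^ e, fun n hn => ?_⟩
  have hex : ∃ y : ℕ, n < (y + 1) ^ e :=
    ⟨n, lt_of_lt_of_le (Nat.lt_succ_self n) (Nat.le_self_pow (by omega) _)⟩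
  set y := Nat.find hex with hy
  have h1 : n < (y + 1) ^ e := Nat.find_spec hex
  have h2 : 2 * p0 + 2 ≤ y := by
    have := lt_of_pow_lt_pow_left₀ e (by positivity) (lt_of_le_of_lt hn h1)
    omega
  have h3 : y ^ e ≤ n := by
    have := not_lt.1 (Nat.find_min hex (m := y - 1) (by omega))
    rwa [show y - 1 + 1 = y by omega] at this
  obtain ⟨p, hp, hp1, hp2⟩ := Nat.exists_prime_lt_and_le_two_mul (y / 2) (by omega)
  have h4 : n ≤ (2 * p) ^ e := le_trans h1.le (Nat.pow_le_pow_left (by omega) e)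
  refine (h p n hp (by omega) (le_trans (Nat.pow_le_pow_left (by omega) e) h3) h4).mono ?_
  have hn0 : (0 : ℝ) < n := by
    have : 0 < n := lt_of_lt_of_le (by positivity) hn
    exact_mod_cast this
  have h5 : (n : ℝ) ^ (1 / (e : ℝ)) ≤ 2 * p := by
    have a1 : (n : ℝ) ≤ (2 * (p : ℝ)) ^ e := by exact_mod_cast h4
    calc (n : ℝ) ^ (1 / (e : ℝ)) ≤ ((2 * (p : ℝ)) ^ e) ^ (1 / (e : ℝ)) := by gcongr
      _ = 2 * p := by
        rw [one_div]
        exact Real.pow_rpow_inv_natCast (by positivity) (by omega)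
  rw [Real.rpow_add hn0, Real.rpow_neg hn0.le, Real.rpow_two]
  calc 1 / (2 * C) * (((n : ℝ) ^ 2)⁻¹ * (n : ℝ) ^ (1 / (e : ℝ)))
      ≤ 1 / (2 * C) * (((n : ℝ) ^ 2)⁻¹ * (2 * p)) := by gcongr
    _ = _ := by field_simp

end Crest.Agent.R32
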