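import Crest.Agent.R32.Basic

set_option autoImplicit false

open Finset

namespace Crest.Agent.R32

open Classical in
/-- lattice points of `P` in the box orthogonal to `ν` -/
noncomputable def plane (P : (Fin 3 → ℤ) → Prop) (ν : Fin 3 → ℤ) (ρ : ℤ) : Finset (Fin 3 → ℤ) :=
  (box ρ).filter fun x => P x ∧ dt x ν = 0

theorem mem_plane {P : (Fin 3 → ℤ) → Prop} {ν x : Fin 3 → ℤ} {ρ : ℤ} :
    x ∈ plane P ν ρ ↔ nrm x ≤ ρ ∧ P x ∧ dt x ν = 0 := by
  classical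
  unfold plane
  simp only [mem_filter, mem_box']

theorem cr_eq_zero_of_par {a x y : Fin 3 → ℤ} (ha : a ≠ 0) (hx : cr a x = 0) (hy : cr a y = 0) :
    cr x y = 0 := by
  rw [vec3_zero_iff] at hx hy
  simp only [cr_0, cr_1, cr_2] at hx hy
  obtain ⟨hx0, hx1, hx2⟩ := hx
  obtain ⟨hy0, hy1, hy2⟩ := hy
  have key : ∀ i, a i * cr x y 0 = 0 ∧ a i * cr x y 1 = 0 ∧ a i * cr x y 2 = 0 := by
    rw [forall3]
    simp only [cr_0, cr_1, cr_2]
    refine ⟨⟨?_, ?_, ?_⟩, ⟨?_, ?_, ?_⟩, ⟨?_, ?_, ?_⟩⟩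
    · linear_combination (y 2) * hx2 + (y 1) * hx1 + (x 0) * hy0
    · linear_combination (y 0) * (-hx1) + (x 0) * hy1
    · linear_combination (x 0) * hy2 - (y 0) * hx2
    · linear_combination (x 1) * hy0 - (y 1) * hx0
    · linear_combination (y 0) * hx0 + (y 2) * hx2 + (x 1) * hy1
    · linear_combination (x 1) * hy2 - (y 1) * hx2
    · linear_combination (x 2) * hy0 - (y 2) * hx0
    · linear_combination (x 2) * hy1 - (y 2) * hx1
    · linear_combination (y 1) * hx1 + (y 0) * hx0 + (x 2) * hy2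
  obtain ⟨i, hi⟩ : ∃ i, a i ≠ 0 := by
    by_contra hc
    push Not at hc
    exact ha (funext hc)
  obtain ⟨h0, h1, h2⟩ := key i
  rw [vec3_zero_iff]
  exact ⟨(mul_eq_zero.1 h0).resolve_left hi, (mul_eq_zero.1 h1).resolve_left hi,
    (mul_eq_zero.1 h2).resolve_left hi⟩

theorem par_comp {a δ : Fin 3 → ℤ} (h : cr a δ = 0) (i l : Fin 3) : δ l * a i = δ i * a l := by
  rw [vec3_zero_iff] at h
  simp only [cr_0, cr_1, cr_2] at h
  obtain ⟨h0, h1, h2⟩ := h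
  fin_cases i <;> fin_cases l <;> simp <;> linarith

theorem card_plane_le (P : (Fin 3 → ℤ) → Prop) (hP : ∀ x y, P x → P y → P (x - y))
    (m : ℤ) (hm : 0 < m) (hPm : ∀ x y, P x → P y → ∀ i, m ∣ cr x y i)
    {ν : Fin 3 → ℤ} (hν : Prim ν) (ρ : ℤ)
    (h2 : ∃ x ∈ plane P ν ρ, ∃ y ∈ plane P ν ρ, cr x y ≠ 0) :
    ((plane P ν ρ).card : ℤ) * (m * nrm ν) ≤ 18 * ρ ^ 2 := by
  classical
  obtain ⟨β, hβ⟩ := hν
  have hν0 : 0 < nrm ν := nrm_pos (Prim.ne_zero ⟨β, hβ⟩)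
  set S := plane P ν ρ with hS
  obtain ⟨x0, hx0, y0, hy0, hxy⟩ := h2
  have hne : (S.filter (fun x => x ≠ 0)).Nonempty := by
    refine ⟨x0, mem_filter.2 ⟨hx0, ?_⟩⟩
    rintro rfl
    apply hxy
    rw [vec3_zero_iff]; simp
  obtain ⟨a, ha, hamin⟩ := exists_min_image _ nrm hne
  rw [mem_filter] at ha
  obtain ⟨haS, ha0⟩ := ha
  obtain ⟨haρ, haP, haν⟩ := mem_plane.1 haS
  set α := nrm a with hα
  have hα0 : 0 < α := nrm_pos ha0
  obtain ⟨i, hi⟩ := exists_nrm a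
  -- the multiplier
  have hj : ∀ x ∈ S, ∃ k : ℤ, (∀ l, cr a x l = m * k * ν l) ∧ |k| * (m * nrm ν) ≤ 2 * α * ρ := by
    intro x hx
    obtain ⟨hxρ, hxP, hxν⟩ := mem_plane.1 hx
    have h1 := fun l => cr_eq_mul_of_perp hβ haν hxν l
    have h2 : m ∣ dt β (cr a x) := by
      unfold dt
      exact dvd_add (dvd_add (Dvd.dvd.mul_left (hPm a x haP hxP 0) _)
        (Dvd.dvd.mul_left (hPm a x haP hxP 1) _)) (Dvd.dvd.mul_left (hPm a x haP hxP 2) _)
    obtain ⟨k, hk⟩ := h2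
    refine ⟨k, fun l => by rw [h1 l, hk], ?_⟩
    obtain ⟨l, hl⟩ := exists_nrm ν
    have h3 := abs_cr_le (x := a) (y := x) l
    rw [h1 l, hk, abs_mul, abs_mul, hl, abs_of_pos hm] at h3
    have h4 : 2 * nrm a * nrm x ≤ 2 * α * ρ := by
      apply mul_le_mul_of_nonneg_left hxρ; linarith
    linarith
  choose! k hk1 hk2 using hj
  set J : ℤ := 2 * α * ρ / (m * nrm ν) with hJ
  have hmν : 0 < m * nrm ν := mul_pos hm hν0
  have hkJ : ∀ x ∈ S, |k x| ≤ J := fun x hx => Int.le_ediv_of_mul_le hmν (hk2 x hx)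
  have hJ1 : 1 ≤ J := by
    by_contra hc
    push Not at hc
    apply hxy
    have hz : ∀ x ∈ S, cr a x = 0 := by
      intro x hx
      have h1 := hkJ x hx
      have h2 : k x = 0 := by
        have := abs_nonneg (k x)
        have : |k x| = 0 := by omega
        simpa using this
      funext l
      rw [hk1 x hx l, h2]; simp
    exact cr_eq_zero_of_par ha0 (hz x0 hx0) (hz y0 hy0)
  have hJm : J * (m * nrm ν) ≤ 2 * α * ρ := Int.ediv_mul_le _ hmν.ne'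
  set I : ℤ := 2 * ρ / α with hI
  have hIα : I * α ≤ 2 * ρ := Int.ediv_mul_le _ hα0.ne'
  have hρ0 : 0 < ρ := lt_of_lt_of_le hα0 haρ
  have hI0 : 0 ≤ I := Int.ediv_nonneg (by linarith) hα0.le
  have hcard : S.card ≤ (Icc (-J) J ×ˢ Icc 0 I).card := by
    apply card_le_card_of_injOn (fun x => (k x, (x i + ρ) / α))
    · intro x hx
      have hx' : x ∈ S := hx
      obtain ⟨hxρ, hxP, hxν⟩ := mem_plane.1 hx'
      have h1 := abs_le.1 (le_trans (abs_le_nrm x i) hxρ)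
      simp only [coe_product, coe_Icc, Set.mem_prod, Set.mem_Icc]
      refine ⟨abs_le.1 (hkJ x hx'), Int.ediv_nonneg (by linarith) hα0.le, ?_⟩
      exact Int.ediv_le_ediv hα0 (by linarith)
    · intro x hx y hy hxy'
      have hx' : x ∈ S := hx
      have hy' : y ∈ S := hy
      simp only [Prod.mk.injEq] at hxy'
      obtain ⟨e1, e2⟩ := hxy'
      by_contra hne'
      have hδ0 : x - y ≠ 0 := sub_ne_zero.2 hne'
      obtain ⟨hxρ, hxP, hxν⟩ := mem_plane.1 hx'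
      obtain ⟨hyρ, hyP, hyν⟩ := mem_plane.1 hy'
      have hcr : cr a (x - y) = 0 := by
        have h1 := hk1 x hx'
        have h2 := hk1 y hy'
        rw [e1] at h1
        rw [forall3] at h1 h2
        simp only [cr_0, cr_1, cr_2] at h1 h2
        rw [vec3_zero_iff]
        simp only [cr_0, cr_1, cr_2, Pi.sub_apply]
        refine ⟨?_, ?_, ?_⟩
        · linear_combination h1.1 - h2.1
        · linear_combination h1.2.1 - h2.2.1
        · linear_combination h1.2.2 - h2.2.2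
      have hδα : α ≤ nrm (x - y) := by
        by_cases hc : nrm (x - y) ≤ ρ
        · apply hamin
          refine mem_filter.2 ⟨mem_plane.2 ⟨hc, hP x y hxP hyP, ?_⟩, hδ0⟩
          simp only [dt, Pi.sub_apply] at hxν hyν ⊢
          linear_combination hxν - hyν
        · push Not at hc; linarith
      have hδi : nrm (x - y) ≤ |(x - y) i| := by
        apply nrm_le
        intro l
        have h1 := par_comp hcr i l
        have h2 : |(x - y) l| * α = |(x - y) i| * |a l| := by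
          rw [hα, ← hi, ← abs_mul, ← abs_mul, h1]
        have h3 : |(x - y) i| * |a l| ≤ |(x - y) i| * α :=
          mul_le_mul_of_nonneg_left (abs_le_nrm a l) (abs_nonneg _)
        rw [← h2] at h3
        exact le_of_mul_le_mul_right h3 hα0
      have h4 : α ≤ |x i - y i| := le_trans hδα hδi
      have h5 := Int.emod_add_mul_ediv (x i + ρ) α
      have h6 := Int.emod_add_mul_ediv (y i + ρ) α
      have h7 := Int.emod_nonneg (x i + ρ) hα0.ne'
      have h8 := Int.emod_nonneg (y i + ρ) hα0.ne'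
      have h9 := Int.emod_lt_of_pos (x i + ρ) hα0
      have h10 := Int.emod_lt_of_pos (y i + ρ) hα0
      rw [e2] at h5
      have : |x i - y i| < α := by
        rw [abs_lt]; constructor <;> linarith
      linarith
  rw [card_product, Int.card_Icc, Int.card_Icc] at hcard
  have hc2 : (S.card : ℤ) ≤ (2 * J + 1) * (I + 1) := by
    have h1 : ((J + 1 - -J).toNat : ℤ) = 2 * J + 1 := by
      rw [Int.toNat_of_nonneg (by linarith)]; ring
    have h2 : ((I + 1 - 0).toNat : ℤ) = I + 1 := by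
      rw [Int.toNat_of_nonneg (by linarith)]; ring
    rw [← h1, ← h2]
    exact_mod_cast hcard
  have h3 : (2 * J + 1) * (m * nrm ν) ≤ 6 * α * ρ := by nlinarith
  have h4 : (I + 1) * α ≤ 3 * ρ := by nlinarith
  have h5 : (S.card : ℤ) * (m * nrm ν) * α ≤ 18 * ρ ^ 2 * α := by
    calc (S.card : ℤ) * (m * nrm ν) * α ≤ (2 * J + 1) * (I + 1) * (m * nrm ν) * α := by
          gcongr
      _ = ((2 * J + 1) * (m * nrm ν)) * ((I + 1) * α) := by ring
      _ ≤ (6 * α * ρ) * (3 * ρ) := by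
          apply mul_le_mul h3 h4 (by positivity) (by positivity)
      _ = 18 * ρ ^ 2 * α := by ring
  exact le_of_mul_le_mul_right h5 hα0

theorem sum_inv_cube_le (N : Finset (Fin 3 → ℤ)) (κ : ℝ) (hκ : 0 ≤ κ) (Hm : ℕ)
    (h0 : ∀ ν ∈ N, ν ≠ 0) (hH : ∀ ν ∈ N, nrm ν ≤ Hm)
    (hc : ∀ H : ℤ, 1 ≤ H → ((N.filter (fun ν => nrm ν ≤ H)).card : ℝ) ≤ κ * (H : ℝ) ^ 3) :
    ∑ ν ∈ N, 1 / ((nrm ν : ℤ) : ℝ) ^ 3 ≤ 8 * κ * (Nat.log 2 Hm + 1) := by
  classical
  have hmap : ∀ ν ∈ N, Nat.log 2 (nrm ν).toNat ∈ range (Nat.log 2 Hm + 1) := by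
    intro ν hν
    rw [mem_range, Nat.lt_succ_iff]
    apply Nat.log_mono_right
    have := hH ν hν
    omega
  rw [← sum_fiberwise_of_maps_to hmap]
  have hb : ∀ j ∈ range (Nat.log 2 Hm + 1),
      ∑ ν ∈ N with Nat.log 2 (nrm ν).toNat = j, 1 / ((nrm ν : ℤ) : ℝ) ^ 3 ≤ 8 * κ := by
    intro j _
    have h1 : ∀ ν ∈ N.filter (fun ν => Nat.log 2 (nrm ν).toNat = j),
        1 / ((nrm ν : ℤ) : ℝ) ^ 3 ≤ 1 / ((2 : ℝ) ^ j) ^ 3 := by
      intro ν hν
      rw [mem_filter] at hν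
      have hp := nrm_pos (h0 ν hν.1)
      have h2 : 2 ^ Nat.log 2 (nrm ν).toNat ≤ (nrm ν).toNat :=
        Nat.pow_log_le_self 2 (by omega)
      rw [hν.2] at h2
      have h3 : ((2 : ℤ) ^ j) ≤ nrm ν := by
        have : ((2 ^ j : ℕ) : ℤ) ≤ ((nrm ν).toNat : ℤ) := by exact_mod_cast h2
        rw [Int.toNat_of_nonneg hp.le] at this
        exact_mod_cast this
      have h4 : ((2 : ℝ) ^ j) ≤ ((nrm ν : ℤ) : ℝ) := by exact_mod_cast h3
      apply one_div_le_one_div_of_le (by positivity)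
      gcongr
    refine le_trans (sum_le_card_nsmul _ _ _ h1) ?_
    have h2 : N.filter (fun ν => Nat.log 2 (nrm ν).toNat = j) ⊆
        N.filter (fun ν => nrm ν ≤ 2 ^ (j + 1)) := by
      intro ν hν
      rw [mem_filter] at hν ⊢
      refine ⟨hν.1, ?_⟩
      have h2 : (nrm ν).toNat < 2 ^ (Nat.log 2 (nrm ν).toNat + 1) :=
        Nat.lt_pow_succ_log_self (by norm_num) _
      rw [hν.2] at h2
      have : (((nrm ν).toNat : ℕ) : ℤ) < ((2 ^ (j + 1) : ℕ) : ℤ) := by exact_mod_cast h2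
      rw [Int.toNat_of_nonneg (nrm_nonneg ν)] at this
      push_cast at this
      exact this.le
    have h3 := hc (2 ^ (j + 1)) (one_le_pow₀ (by norm_num))
    have h4 : ((N.filter (fun ν => Nat.log 2 (nrm ν).toNat = j)).card : ℝ) ≤
        κ * ((2 : ℝ) ^ (j + 1)) ^ 3 := by
      refine le_trans (Nat.cast_le.2 (card_le_card h2)) ?_
      push_cast at h3
      exact h3
    rw [nsmul_eq_mul]
    calc _ ≤ κ * ((2 : ℝ) ^ (j + 1)) ^ 3 * (1 / ((2 : ℝ) ^ j) ^ 3) := by gcongr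
      _ = 8 * κ := by field_simp; ring
  refine le_trans (sum_le_card_nsmul _ _ _ hb) ?_
  rw [card_range, nsmul_eq_mul]
  push_cast
  linarith

open Classical in
theorem card_sing_le (P : (Fin 3 → ℤ) → Prop) (hP : ∀ x y, P x → P y → P (x - y))
    (m : ℤ) (hm : 0 < m) (hPm : ∀ x y, P x → P y → ∀ i, m ∣ cr x y i)
    (Q : (Fin 3 → ℤ) → Prop) (κ : ℝ) (hκ : 0 ≤ κ)
    (hQ : ∀ H : ℤ, 1 ≤ H → (((box H).filter Q).card : ℝ) ≤ κ * (H : ℝ) ^ 3) (ρ : ℕ)
    (𝒱 : Finset (Fin 3 → Fin 3 → ℤ))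
    (h𝒱 : ∀ V ∈ 𝒱, (∀ i, nrm (V i) ≤ ρ ∧ P (V i)) ∧ (∃ i j, cr (V i) (V j) ≠ 0) ∧
      ∃ ν, Prim ν ∧ Q ν ∧ ∀ i, dt (V i) ν = 0) :
    (𝒱.card : ℝ) ≤ (18 * (ρ : ℝ) ^ 2 / m) ^ 3 * (8 * κ * (Nat.log 2 (2 * ρ ^ 2) + 1)) := by
  set N : Finset (Fin 3 → ℤ) := (box (2 * (ρ : ℤ) ^ 2)).filter (fun ν => Prim ν ∧ Q ν ∧
    ∃ x ∈ plane P ν ρ, ∃ y ∈ plane P ν ρ, cr x y ≠ 0) with hN
  have hsub : 𝒱 ⊆ N.biUnion (fun ν => Fintype.piFinset fun _ : Fin 3 => plane P ν ρ) := by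
    intro V hV
    obtain ⟨h1, ⟨i, j, hij⟩, ν, hν, hQν, h3⟩ := h𝒱 V hV
    have hmem : ∀ i, V i ∈ plane P ν ρ := fun i => mem_plane.2 ⟨(h1 i).1, (h1 i).2, h3 i⟩
    rw [mem_biUnion]
    refine ⟨ν, mem_filter.2 ⟨?_, hν, hQν, V i, hmem i, V j, hmem j, hij⟩, ?_⟩
    · obtain ⟨β, hβ⟩ := hν
      have h4 := cr_eq_mul_of_perp hβ (h3 i) (h3 j)
      have h5 : dt β (cr (V i) (V j)) ≠ 0 := by
        intro h
        apply hij
        funext l
        rw [h4 l, h]; simp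
      rw [mem_box]
      intro l
      have h6 := abs_cr_le (x := V i) (y := V j) l
      rw [h4 l, abs_mul] at h6
      have h7 : 1 ≤ |dt β (cr (V i) (V j))| := Int.one_le_abs h5
      have h8 : 2 * nrm (V i) * nrm (V j) ≤ 2 * (ρ : ℤ) ^ 2 := by
        have := mul_le_mul (h1 i).1 (h1 j).1 (nrm_nonneg _) (by positivity)
        nlinarith
      nlinarith [abs_nonneg (ν l)]
    · rw [Fintype.mem_piFinset]; exact hmem
  have h1 : (𝒱.card : ℝ) ≤ ∑ ν ∈ N, ((plane P ν ρ).card : ℝ) ^ 3 := by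
    have := le_trans (card_le_card hsub) card_biUnion_le
    simp only [Fintype.card_piFinset, prod_const, card_univ, Fintype.card_fin] at this
    exact_mod_cast this
  have hm' : (0 : ℝ) < m := by exact_mod_cast hm
  have h2 : ∀ ν ∈ N, ((plane P ν ρ).card : ℝ) ^ 3 ≤
      (18 * (ρ : ℝ) ^ 2 / m) ^ 3 * (1 / ((nrm ν : ℤ) : ℝ) ^ 3) := by
    intro ν hν
    obtain ⟨-, hν1, -, hν2⟩ := mem_filter.1 hν
    have h3 := card_plane_le P hP m hm hPm hν1 ρ hν2
    have h4 : ((plane P ν ρ).card : ℝ) * (m * ((nrm ν : ℤ) : ℝ)) ≤ 18 * (ρ : ℝ) ^ 2 := by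
      exact_mod_cast h3
    have h5 : (0 : ℝ) < ((nrm ν : ℤ) : ℝ) := by exact_mod_cast nrm_pos hν1.ne_zero
    have h6 : ((plane P ν ρ).card : ℝ) ≤ 18 * (ρ : ℝ) ^ 2 / m * (1 / ((nrm ν : ℤ) : ℝ)) := by
      rw [div_mul_div_comm, mul_one, le_div_iff₀ (by positivity)]
      exact h4
    calc _ ≤ (18 * (ρ : ℝ) ^ 2 / m * (1 / ((nrm ν : ℤ) : ℝ))) ^ 3 := by gcongr
      _ = _ := by rw [mul_pow, one_div_pow]
  refine le_trans h1 (le_trans (sum_le_sum h2) ?_)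
  rw [← mul_sum]
  apply mul_le_mul_of_nonneg_left _ (by positivity)
  apply sum_inv_cube_le N κ hκ
  · intro ν hν
    exact (mem_filter.1 hν).2.1.ne_zero
  · intro ν hν
    have := mem_box'.1 (mem_filter.1 hν).1
    exact_mod_cast this
  · intro H hH
    refine le_trans ?_ (hQ H hH)
    have : N.filter (fun ν => nrm ν ≤ H) ⊆ (box H).filter Q := by
      intro ν hν
      rw [mem_filter] at hν ⊢
      exact ⟨mem_box'.2 hν.2, (mem_filter.1 hν.1).2.2.1⟩
    exact Nat.cast_le.2 (card_le_card this)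

theorem card_box (H : ℤ) (hH : 0 ≤ H) : ((box H).card : ℝ) = (2 * H + 1) ^ 3 := by
  unfold box
  rw [Fintype.card_piFinset]
  simp only [Int.card_Icc, prod_const, card_univ, Fintype.card_fin]
  have : (((H + 1 - -H).toNat : ℤ) : ℝ) = 2 * H + 1 := by
    rw [Int.toNat_of_nonneg (by linarith)]; push_cast; ring
  rw [← this]; push_cast; rfl

/-- number of integer matrices in a box with a given nonzero determinant -/
theorem card_det_le (ρ : ℕ) (k : ℤ) (hk : k ≠ 0) (𝒱 : Finset (Fin 3 → Fin 3 → ℤ))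
    (h𝒱 : ∀ V ∈ 𝒱, (∀ i, nrm (V i) ≤ ρ) ∧ d3 (V 0) (V 1) (V 2) = k) :
    (𝒱.card : ℝ) ≤ (72 * (ρ : ℝ) ^ 2) ^ 3 * (216 * (Nat.log 2 (8 * ρ ^ 2) + 1)) := by
  classical
  let z0 : (Fin 3 → ℤ) → (Fin 3 → ℤ) → (Fin 3 → ℤ) := fun x y =>
    if h : ∃ z, nrm z ≤ ρ ∧ d3 x y z = k then h.choose else 0
  have hz0 : ∀ V ∈ 𝒱, nrm (z0 (V 0) (V 1)) ≤ ρ ∧ d3 (V 0) (V 1) (z0 (V 0) (V 1)) = k := by
    intro V hV
    have h : ∃ z, nrm z ≤ ρ ∧ d3 (V 0) (V 1) z = k := ⟨V 2, (h𝒱 V hV).1 2, (h𝒱 V hV).2⟩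
    simp only [z0, dif_pos h]
    exact h.choose_spec
  let Φ : (Fin 3 → Fin 3 → ℤ) → (Fin 3 → Fin 3 → ℤ) := fun V =>
    ![V 0, V 1, V 2 - z0 (V 0) (V 1)]
  have hinj : Set.InjOn Φ 𝒱 := by
    intro V _ W _ h
    have h0 : V 0 = W 0 := congrFun h 0
    have h1 : V 1 = W 1 := congrFun h 1
    have h2 : V 2 - z0 (V 0) (V 1) = W 2 - z0 (W 0) (W 1) := congrFun h 2
    rw [h0, h1] at h2
    exact vec3_ext h0 h1 (sub_left_injective h2)
  rw [← card_image_of_injOn hinj]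
  have := card_sing_le (fun _ => True) (fun _ _ _ _ => trivial) 1 one_pos
    (fun _ _ _ _ _ => one_dvd _) (fun _ => True) 27 (by norm_num) ?_ (2 * ρ) (𝒱.image Φ) ?_
  · refine le_trans this (le_of_eq ?_)
    have : 2 * (2 * ρ) ^ 2 = 8 * ρ ^ 2 := by ring
    rw [this]; push_cast; ring
  · intro H hH
    rw [filter_true, card_box H (by linarith)]
    have : (1 : ℝ) ≤ H := by exact_mod_cast hH
    calc (2 * (H : ℝ) + 1) ^ 3 ≤ (3 * H) ^ 3 := by gcongr; linarith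
      _ = _ := by ring
  · intro W hW
    obtain ⟨V, hV, rfl⟩ := mem_image.1 hW
    obtain ⟨h1, h2⟩ := h𝒱 V hV
    obtain ⟨h3, h4⟩ := hz0 V hV
    have hcr : cr (V 0) (V 1) ≠ 0 := by
      intro h
      rw [d3_eq_dt, h] at h2
      simp [dt] at h2
      exact hk h2.symm
    have hρ : (0 : ℤ) ≤ ρ := by positivity
    refine ⟨?_, ⟨0, 1, hcr⟩, ?_⟩
    · rw [forall3]
      refine ⟨⟨?_, trivial⟩, ⟨?_, trivial⟩, ⟨?_, trivial⟩⟩
      · have := h1 0
        show nrm (V 0) ≤ _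
        push_cast; linarith
      · have := h1 1
        show nrm (V 1) ≤ _
        push_cast; linarith
      · show nrm (V 2 - z0 (V 0) (V 1)) ≤ _
        apply nrm_le
        intro l
        have a1 := le_trans (abs_le_nrm _ l) (h1 2)
        have a2 := le_trans (abs_le_nrm _ l) h3
        have := abs_sub (V 2 l) (z0 (V 0) (V 1) l)
        rw [Pi.sub_apply]
        push_cast; linarith
    · obtain ⟨g, hg, ν, hν, hgν⟩ := exists_prim hcr
      refine ⟨ν, hν, trivial, ?_⟩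
      rw [forall3] at hgν ⊢
      simp only [cr_0, cr_1, cr_2] at hgν
      obtain ⟨e0, e1, e2⟩ := hgν
      refine ⟨?_, ?_, ?_⟩
      · apply mul_left_cancel₀ hg
        show g * dt (V 0) ν = _
        simp only [dt]
        linear_combination (-(V 0 0)) * e0 - (V 0 1) * e1 - (V 0 2) * e2
      · apply mul_left_cancel₀ hg
        show g * dt (V 1) ν = _
        simp only [dt]
        linear_combination (-(V 1 0)) * e0 - (V 1 1) * e1 - (V 1 2) * e2
      · apply mul_left_cancel₀ hg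
        show g * dt (V 2 - z0 (V 0) (V 1)) ν = _
        simp only [dt, d3, Pi.sub_apply] at h2 h4 ⊢
        linear_combination (-(V 2 0 - z0 (V 0) (V 1) 0)) * e0 - (V 2 1 - z0 (V 0) (V 1) 1) * e1
          - (V 2 2 - z0 (V 0) (V 1) 2) * e2 + h2 - h4

end Crest.Agent.R32
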