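import Crest.Agent.R32.Count

set_option autoImplicit false

open Finset

namespace Crest.Agent.R32

/-- the sample space -/
abbrev Om (M q : ℕ) : Type :=
  Matrix (Fin 3) (Fin 3) (ZMod M) × (Matrix (Fin 3) (Fin 3) (ZMod q) × (Fin 3 → ZMod q))

open Classical in
theorem omega_count (M q : ℕ) [Fact M.Prime] [Fact q.Prime]
    (A : Matrix (Fin 3) (Fin 3) (ZMod M))
    (HA : ∀ ν : Fin 3 → ZMod M, (∀ i, dt (A i) ν = 0) → ν 0 + ν 1 + ν 2 = 0)
    {ν : ZMod q} (hν : ¬ IsSquare ν) (t : Fin 3 → ZMod q × ZMod q) (ht : Function.Injective t)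
    (ρ : ℕ) (V : Om M q → Fin 3 → Fin 3 → ℤ) (B : Finset (Om M q))
    (hB : ∀ ω ∈ B, ω.1 ∈ SLs (ZMod M) ∧ ω.2.1 ∈ SLs (ZMod q) ∧ (∀ i, nrm (V ω i) ≤ ρ) ∧
      V ω 2 ≠ 0 ∧ 4 * |d3 (V ω 0) (V ω 1) (V ω 2)| < M ∧
      (∀ i j, (ω.1 * A) i j = (V ω i j : ZMod M)) ∧
      ∀ i j, (ω.2.2 + ω.2.1.mulVec (gam ν (t j))) i = (V ω i j : ZMod q)) :
    (B.card : ℝ) ≤ (q : ℝ) ^ 2 * (Cst * (ρ : ℝ) ^ 6 * (Nat.log 2 (8 * ρ ^ 2) + 1) *
        (if (∀ i, A i 0 = A i 1 ∧ A i 0 = A i 2) then (M : ℝ) else 1)) := by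
  have h01 : t 0 ≠ t 1 := fun h => absurd (ht h) (by decide)
  have h02 : t 0 ≠ t 2 := fun h => absurd (ht h) (by decide)
  have h12 : t 1 ≠ t 2 := fun h => absurd (ht h) (by decide)
  obtain ⟨σ, hσ1, hσ2⟩ := bad_count M A HA ρ (B.image V) (by
    intro W hW
    obtain ⟨ω, hω, rfl⟩ := mem_image.1 hW
    obtain ⟨h1, h2, h3, h4, h5, h6, h7⟩ := hB ω hω
    refine ⟨h3, h4, h5, ?_, ω.1, h1, h6⟩
    rintro μ ⟨β, hβ⟩ hs hperp
    have hs' : (μ 0 : ZMod q) + μ 1 + μ 2 = 0 := by exact_mod_cast congrArg (Int.cast : ℤ → ZMod q) hs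
    have h9 : ω.2.1.mulVec (fun l => (μ 0 : ZMod q) * gam ν (t 0) l + μ 1 * gam ν (t 1) l +
        μ 2 * gam ν (t 2) l) = 0 := by
      funext i
      have a0 := h7 i 0
      have a1 := h7 i 1
      have a2 := h7 i 2
      have a3 := congrArg (Int.cast : ℤ → ZMod q) (hperp i)
      simp only [Pi.add_apply, mulVec_apply3, dt] at a0 a1 a2 a3
      push_cast at a3
      rw [mulVec_apply3]
      simp only [dt, Pi.zero_apply]
      linear_combination (μ 0 : ZMod q) * a0 + (μ 1 : ZMod q) * a1 + (μ 2 : ZMod q) * a2 + a3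
        - ω.2.2 i * hs'
    have h10 := Matrix.eq_zero_of_mulVec_eq_zero (by rw [mem_SLs.1 h2]; exact one_ne_zero) h9
    obtain ⟨c0, c1, c2⟩ := cap hν h01 h02 h12 hs' (fun l => congrFun h10 l)
    have h11 := congrArg (Int.cast : ℤ → ZMod q) hβ
    simp only [dt] at h11
    push_cast at h11
    rw [c0, c1, c2] at h11
    simp at h11)
  have h1 : B.card ≤ (σ * q ^ 2) * (B.image V).card := by
    apply card_le_mul_card_image
    intro W _
    have h2 := stab_aff hν h01 h02 h12 (fun i => (W i 0 : ZMod q)) (fun i => (W i 1 : ZMod q))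
      (fun i => (W i 2 : ZMod q))
    rw [ZMod.card] at h2
    refine le_trans (card_le_card ?_) (le_trans (card_product _ _).le
      (Nat.mul_le_mul (hσ1 (Matrix.of fun i j => (W i j : ZMod M))) h2))
    intro ω hω
    rw [mem_filter] at hω
    obtain ⟨hω, rfl⟩ := hω
    obtain ⟨h1, h2, h3, h4, h5, h6, h7⟩ := hB ω hω
    simp only [mem_product, mem_filter, mem_univ, and_true]
    refine ⟨⟨h1, ?_⟩, h2, ?_, ?_, ?_⟩
    · ext i j; exact h6 i j
    · funext i; exact h7 i 0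
    · funext i; exact h7 i 1
    · funext i; exact h7 i 2
  have h3 : (B.card : ℝ) ≤ (q : ℝ) ^ 2 * (((B.image V).card : ℝ) * σ) := by
    have : (B.card : ℝ) ≤ ((σ * q ^ 2) * (B.image V).card : ℕ) := by exact_mod_cast h1
    push_cast at this
    linarith
  refine le_trans h3 ?_
  gcongr

theorem inj3 {α : Type*} {f : Fin 3 → α} (h01 : f 0 ≠ f 1) (h02 : f 0 ≠ f 2) (h12 : f 1 ≠ f 2) :
    Function.Injective f := by
  intro i j hij
  fin_cases i <;> fin_cases j
  · rfl
  · exact absurd hij h01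
  · exact absurd hij h02
  · exact absurd hij.symm h01
  · rfl
  · exact absurd hij h12
  · exact absurd hij.symm h02
  · exact absurd hij.symm h12
  · rfl

theorem sum_zero_of_not_inj {α F : Type*} [Field F] (x y : α → F) (h2 : ∀ a, x a ≠ 0)
    (h3 : ∀ a c, a ≠ c → x a * y c - x c * y a ≠ 0) (a : Fin 3 → α)
    (ha : ¬ Function.Injective a) (ν : Fin 3 → F) (hx : dt (fun j => x (a j)) ν = 0)
    (hy : dt (fun j => y (a j)) ν = 0) : ν 0 + ν 1 + ν 2 = 0 := by
  have key : ∀ (b c : α) (s t : F), s * x b + t * x c = 0 → s * y b + t * y c = 0 → s + t = 0 := by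
    intro b c s t e1 e2
    by_cases hbc : b = c
    · subst hbc
      apply mul_right_cancel₀ (h2 b)
      linear_combination e1
    · have h4 := h3 b c hbc
      have hs : s = 0 := by
        apply mul_right_cancel₀ h4
        linear_combination (y c) * e1 - (x c) * e2
      have ht : t = 0 := by
        apply mul_right_cancel₀ h4
        linear_combination (x b) * e2 - (y b) * e1
      rw [hs, ht, add_zero]
  simp only [dt] at hx hy
  by_cases h01 : a 0 = a 1
  · rw [← h01] at hx hy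
    exact key (a 0) (a 2) _ _ (by linear_combination hx) (by linear_combination hy)
  by_cases h02 : a 0 = a 2
  · rw [← h02] at hx hy
    have := key (a 0) (a 1) (ν 0 + ν 2) (ν 1) (by linear_combination hx) (by linear_combination hy)
    linear_combination this
  by_cases h12 : a 1 = a 2
  · rw [← h12] at hx hy
    have := key (a 0) (a 1) (ν 0) (ν 1 + ν 2) (by linear_combination hx) (by linear_combination hy)
    linear_combination this
  exact absurd (inj3 h01 h02 h12) ha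

theorem card_pair_mod (n0 m : ℕ) (i j l : Fin 3) (hijl : ∀ k, k = i ∨ k = j ∨ k = l) :
    ((Fintype.piFinset fun _ : Fin 3 => range n0).filter fun w => w i % m = w j % m).card ≤
      n0 * n0 * (n0 / m + 1) := by
  have : n0 * n0 * (n0 / m + 1) = ((range n0 ×ˢ range n0) ×ˢ range (n0 / m + 1)).card := by simp
  rw [this]
  apply card_le_card_of_injOn (fun w => ((w i, w l), w j / m))
  · intro w hw
    simp only [coe_filter, Fintype.mem_piFinset, mem_range, Set.mem_ofPred_eq, coe_product,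
      coe_range, Set.mem_prod, Set.mem_Iio] at hw ⊢
    exact ⟨⟨hw.1 i, hw.1 l⟩, Nat.lt_succ_of_le (Nat.div_le_div_right (hw.1 j).le)⟩
  · intro w hw w' hw' h
    simp only [coe_filter, Set.mem_ofPred_eq, Prod.mk.injEq] at hw hw' h
    funext k
    rcases hijl k with rfl | rfl | rfl
    · exact h.1.1
    · rw [← Nat.mod_add_div (w k) m, ← Nat.mod_add_div (w' k) m, ← hw.2, ← hw'.2, h.1.1, h.2]
    · exact h.1.2

theorem card_triple_mod (n0 m : ℕ) :
    ((Fintype.piFinset fun _ : Fin 3 => range n0).filter fun w =>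
      w 0 % m = w 1 % m ∧ w 0 % m = w 2 % m).card ≤ n0 * (n0 / m + 1) * (n0 / m + 1) := by
  have : n0 * (n0 / m + 1) * (n0 / m + 1) =
      ((range n0 ×ˢ range (n0 / m + 1)) ×ˢ range (n0 / m + 1)).card := by simp
  rw [this]
  apply card_le_card_of_injOn (fun w => ((w 0, w 1 / m), w 2 / m))
  · intro w hw
    simp only [coe_filter, Fintype.mem_piFinset, mem_range, Set.mem_ofPred_eq, coe_product,
      coe_range, Set.mem_prod, Set.mem_Iio] at hw ⊢
    exact ⟨⟨hw.1 0, Nat.lt_succ_of_le (Nat.div_le_div_right (hw.1 1).le)⟩,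
      Nat.lt_succ_of_le (Nat.div_le_div_right (hw.1 2).le)⟩
  · intro w hw w' hw' h
    simp only [coe_filter, Set.mem_ofPred_eq, Prod.mk.injEq] at hw hw' h
    refine vec3_ext h.1.1 ?_ ?_
    · rw [← Nat.mod_add_div (w 1) m, ← Nat.mod_add_div (w' 1) m, ← hw.2.1, ← hw'.2.1, h.1.1, h.1.2]
    · rw [← Nat.mod_add_div (w 2) m, ← Nat.mod_add_div (w' 2) m, ← hw.2.2, ← hw'.2.2, h.1.1, h.2]

theorem exists_lift (M q : ℕ) [NeZero M] [NeZero q] (h : Nat.Coprime M q) :
    ∃ lift : ZMod M → ZMod q → ℤ, ∀ a b, 0 ≤ lift a b ∧ lift a b < (M : ℤ) * q ∧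
      (lift a b : ZMod M) = a ∧ (lift a b : ZMod q) = b := by
  refine ⟨fun a b => ((Nat.chineseRemainder h a.val b.val : ℕ) : ℤ), fun a b =>
    ⟨by positivity, ?_, ?_, ?_⟩⟩
  · beta_reduce
    exact_mod_cast Nat.chineseRemainder_lt_mul h a.val b.val (NeZero.ne M) (NeZero.ne q)
  · rw [Int.cast_natCast, (ZMod.natCast_eq_natCast_iff _ _ _).2
      (Nat.chineseRemainder h a.val b.val).2.1, ZMod.natCast_zmod_val]
  · rw [Int.cast_natCast, (ZMod.natCast_eq_natCast_iff _ _ _).2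
      (Nat.chineseRemainder h a.val b.val).2.2, ZMod.natCast_zmod_val]

theorem div_add_one_le (a m : ℕ) (hm : 0 < m) (h : m ≤ a) :
    ((a / m + 1 : ℕ) : ℝ) ≤ 2 * a / m := by
  have hm' : (0 : ℝ) < m := by exact_mod_cast hm
  rw [le_div_iff₀ hm']
  have : (a / m + 1) * m ≤ 2 * a := by
    have := Nat.div_mul_le_self a m
    nlinarith
  exact_mod_cast this

set_option maxHeartbeats 800000 in
theorem exists_good (M q s N n : ℕ) [Fact M.Prime] [Fact q.Prime] (hq2 : q ≠ 2) (hMq : M ≠ q)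
    (X : ℤ) (hX : 1 ≤ X) (hs : 0 < s) (hN : 0 < N) (hNM : N ≤ M) (hMN : M ≤ N ^ 2)
    (x y z : Fin s → ℤ)
    (h1 : ∀ a : Fin 3 → Fin s, Function.Injective a → ∀ τ : Fin 3 → ℤ,
      (∀ j, 0 ≤ τ j ∧ τ j ≤ N) → ∀ k : ℤ,
        (M : ℤ) ∣ k - d3 (fun j => x (a j)) (fun j => y (a j)) (fun j => z (a j) + τ j) →
          M ≤ 4 * X * |k|)
    (h2 : ∀ a, ¬ (M : ℤ) ∣ x a) (h3 : ∀ a c, a ≠ c → ¬ (M : ℤ) ∣ x a * y c - x c * y a)
    (hnq : 2 * n ≤ q ^ 2) (hsn : s * N ≤ 2 * n)
    (hE : 81920 * Cst * (Nat.log 2 (8 * (2 * (M * q)) ^ 2) + 1) * (n : ℝ) ^ 2 ≤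
      s * (M : ℝ) ^ 2 * (q : ℝ) ^ 3) :
    ∃ v : ℕ → Fin 3 → ℤ, ∃ J : Finset ℕ, n ≤ J.card ∧
      (∀ i, (0 ≤ v i 0 ∧ v i 0 < M * q) ∧ (0 ≤ v i 1 ∧ v i 1 < M * q) ∧
        (M * q ≤ v i 2 ∧ v i 2 < 2 * (M * q))) ∧
      ∀ i ∈ J, ∀ j ∈ J, ∀ l ∈ J, i ≠ j → i ≠ l → j ≠ l →
        M ≤ 4 * X * |d3 (v i) (v j) (v l)| := by
  classical
  have hMp : M.Prime := Fact.out
  have hqp : q.Prime := Fact.out
  have hM0 : (0 : ℝ) < M := by exact_mod_cast hMp.pos
  have hq0 : (0 : ℝ) < q := by exact_mod_cast hqp.pos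
  have hs0 : (0 : ℝ) < s := by exact_mod_cast hs
  have hN0 : (0 : ℝ) < N := by exact_mod_cast hN
  obtain ⟨lift, hlift⟩ := exists_lift M q ((Nat.coprime_primes hMp hqp).2 hMq)
  obtain ⟨ν, hν⟩ := FiniteField.exists_nonsquare (F := ZMod q) (by rw [ZMod.ringChar_zmod_n]; exact hq2)
  let π : ℕ → ZMod q × ZMod q := fun i => ((i : ZMod q), ((i / q : ℕ) : ZMod q))
  have hπ : ∀ i j, i < 2 * n → j < 2 * n → π i = π j → i = j := by
    intro i j hi hj h
    simp only [π, Prod.mk.injEq, ZMod.natCast_eq_natCast_iff'] at h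
    have hi' : i / q < q := Nat.div_lt_of_lt_mul (by nlinarith)
    have hj' : j / q < q := Nat.div_lt_of_lt_mul (by nlinarith)
    rw [Nat.mod_eq_of_lt hi', Nat.mod_eq_of_lt hj'] at h
    rw [← Nat.mod_add_div i q, ← Nat.mod_add_div j q, h.1, h.2]
  let cls : ℕ → Fin s := fun i => ⟨i % s, Nat.mod_lt _ hs⟩
  let tail : ℕ → ℕ := fun i => (i / s) % N
  let col : ℕ → Fin 3 → ℤ := fun i => ![x (cls i), y (cls i), z (cls i) + tail i]
  let v : Om M q → ℕ → Fin 3 → ℤ := fun ω i r =>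
    lift (ω.1.mulVec (fun r => (col i r : ZMod M)) r) ((ω.2.2 + ω.2.1.mulVec (gam ν (π i))) r) +
      if r = 2 then (M : ℤ) * q else 0
  have hv1 : ∀ ω i, (0 ≤ v ω i 0 ∧ v ω i 0 < M * q) ∧ (0 ≤ v ω i 1 ∧ v ω i 1 < M * q) ∧
        (M * q ≤ v ω i 2 ∧ v ω i 2 < 2 * (M * q)) := by
    intro ω i
    simp only [v]
    rw [if_neg (by decide), if_neg (by decide), if_pos trivial, add_zero, add_zero]
    refine ⟨⟨(hlift _ _).1, (hlift _ _).2.1⟩, ⟨(hlift _ _).1, (hlift _ _).2.1⟩, ?_, ?_⟩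
    · linarith [(hlift (ω.1.mulVec (fun r => (col i r : ZMod M)) 2)
        ((ω.2.2 + ω.2.1.mulVec (gam ν (π i))) 2)).1]
    · linarith [(hlift (ω.1.mulVec (fun r => (col i r : ZMod M)) 2)
        ((ω.2.2 + ω.2.1.mulVec (gam ν (π i))) 2)).2.1]
  have hv2 : ∀ ω i r, (v ω i r : ZMod M) = ω.1.mulVec (fun r => (col i r : ZMod M)) r := by
    intro ω i r
    simp only [v]
    split_ifs <;> push_cast <;> simp [(hlift _ _).2.2.1]
  have hv3 : ∀ ω i r, (v ω i r : ZMod q) = (ω.2.2 + ω.2.1.mulVec (gam ν (π i))) r := by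
    intro ω i r
    simp only [v]
    split_ifs <;> push_cast <;> simp [(hlift _ _).2.2.2]
  let Ωs : Finset (Om M q) := SLs (ZMod M) ×ˢ (SLs (ZMod q) ×ˢ univ)
  let W0 : Finset (Fin 3 → ℕ) := Fintype.piFinset fun _ : Fin 3 => range (2 * n)
  let W : Finset (Fin 3 → ℕ) := W0.filter Function.Injective
  let bad : Om M q → (Fin 3 → ℕ) → Prop := fun ω w =>
    4 * X * |d3 (fun j => v ω (w j) 0) (fun j => v ω (w j) 1) (fun j => v ω (w j) 2)| < M
  set Λ : ℝ := (q : ℝ) ^ 2 * (Cst * ((2 * (M * q) : ℕ) : ℝ) ^ 6 *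
    (Nat.log 2 (8 * (2 * (M * q)) ^ 2) + 1)) with hΛ
  have hΛ0 : 0 ≤ Λ := by rw [hΛ]; unfold Cst; positivity
  have hper : ∀ w ∈ W, ((Ωs.filter fun ω => bad ω w).card : ℝ) ≤
      Λ * ((if w 0 % s = w 1 % s then 1 else 0) + (if w 0 % s = w 2 % s then 1 else 0) +
        (if w 1 % s = w 2 % s then 1 else 0) +
        M * (if w 0 % (s * N) = w 1 % (s * N) ∧ w 0 % (s * N) = w 2 % (s * N) then 1 else 0)) := by
    intro w hw
    obtain ⟨hw0, hwi⟩ := mem_filter.1 hw
    have hwlt : ∀ j, w j < 2 * n := fun j => mem_range.1 (Fintype.mem_piFinset.1 hw0 j)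
    let A : Matrix (Fin 3) (Fin 3) (ZMod M) := Matrix.of fun r j => (col (w j) r : ZMod M)
    have hgA : ∀ (ω : Om M q) i j, (ω.1 * A) i j = (v ω (w j) i : ZMod M) := by
      intro ω i j
      rw [hv2, mul_apply3, mulVec_apply3]; rfl
    by_cases hc : Function.Injective (fun j => cls (w j))
    · have : (Ωs.filter fun ω => bad ω w) = ∅ := by
        apply filter_eq_empty_iff.2
        intro ω hω hbad
        have hg : ω.1.det = 1 := mem_SLs.1 (mem_product.1 hω).1
        refine absurd hbad (not_lt.2 (h1 _ hc (fun j => tail (w j)) (fun j => ⟨by positivity, ?_⟩)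
          _ ?_))
        · exact_mod_cast (Nat.mod_lt _ hN).le
        · rw [← ZMod.intCast_zmod_eq_zero_iff_dvd]
          have e1 := Matrix.det_mul ω.1 A
          rw [hg, one_mul, det_eq_d3, det_eq_d3] at e1
          simp only [d3, hgA] at e1
          simp only [A, col, Matrix.of_apply, Matrix.cons_val_zero, Matrix.cons_val_one,
            Matrix.cons_val_two, Matrix.head_cons, Matrix.tail_cons] at e1
          simp only [d3]
          push_cast at e1 ⊢
          linear_combination e1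
      rw [this]
      simp only [card_empty, Nat.cast_zero]
      positivity
    · have hx2 : ∀ a, (x a : ZMod M) ≠ 0 := fun a h =>
        h2 a ((ZMod.intCast_zmod_eq_zero_iff_dvd _ _).1 h)
      have hx3 : ∀ a c, a ≠ c → (x a : ZMod M) * (y c : ZMod M) - (x c : ZMod M) * (y a) ≠ 0 :=
        fun a c hac h => h3 a c hac ((ZMod.intCast_zmod_eq_zero_iff_dvd _ _).1
          (by push_cast; exact h))
      have := omega_count M q A (fun μ hμ => sum_zero_of_not_inj (fun a => (x a : ZMod M))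
        (fun a => (y a : ZMod M)) hx2 hx3 _ hc μ (hμ 0) (hμ 1)) hν (fun j => π (w j))
        (fun i j hij => hwi (hπ _ _ (hwlt i) (hwlt j) hij)) (2 * (M * q))
        (fun ω r j => v ω (w j) r) (Ωs.filter fun ω => bad ω w) (by
          intro ω hω
          obtain ⟨hω, hbad⟩ := mem_filter.1 hω
          have hMq0 : (0 : ℤ) < M * q := by
            have := hMp.pos
            have := hqp.pos
            positivity
          refine ⟨(mem_product.1 hω).1, (mem_product.1 (mem_product.1 hω).2).1, ?_, ?_, ?_,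
            hgA ω, fun i j => (hv3 ω (w j) i).symm⟩
          · intro i
            apply nrm_le
            intro j
            obtain ⟨⟨a1, a2⟩, ⟨a3, a4⟩, a5, a6⟩ := hv1 ω (w j)
            rw [abs_le]
            push_cast
            fin_cases i <;> simp <;> constructor <;> linarith
          · intro h
            have h' : v ω (w 0) 2 = 0 := congrFun h 0
            have := (hv1 ω (w 0)).2.2.1
            linarith
          · refine lt_of_le_of_lt ?_ hbad
            have := abs_nonneg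
              (d3 (fun j => v ω (w j) 0) (fun j => v ω (w j) 1) (fun j => v ω (w j) 2))
            nlinarith)
      refine le_trans this ?_
      rw [← mul_assoc, ← hΛ]
      apply mul_le_mul_of_nonneg_left _ hΛ0
      have i1 : ∀ (P : Prop) [Decidable P], (0 : ℝ) ≤ if P then 1 else 0 := by
        intro P _; split_ifs <;> norm_num
      by_cases hall : ∀ i, A i 0 = A i 1 ∧ A i 0 = A i 2
      · rw [if_pos hall]
        have key : ∀ j, (∀ i, A i 0 = A i j) → w 0 % (s * N) = w j % (s * N) := by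
          intro j hj
          have e0 : (x (cls (w 0)) : ZMod M) = x (cls (w j)) := hj 0
          have e1 : (y (cls (w 0)) : ZMod M) = y (cls (w j)) := hj 1
          have e2 : ((z (cls (w 0)) + tail (w 0) : ℤ) : ZMod M) =
            ((z (cls (w j)) + tail (w j) : ℤ) : ZMod M) := hj 2
          have e3 : cls (w 0) = cls (w j) := by
            by_contra hne
            apply hx3 _ _ hne
            rw [e0, e1]; ring
          rw [e3] at e2
          push_cast at e2
          have e4 := add_left_cancel e2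
          rw [ZMod.natCast_eq_natCast_iff', Nat.mod_eq_of_lt (lt_of_lt_of_le (Nat.mod_lt _ hN) hNM),
            Nat.mod_eq_of_lt (lt_of_lt_of_le (Nat.mod_lt _ hN) hNM)] at e4
          have e5 : w 0 % s = w j % s := congrArg Fin.val e3
          rw [Nat.mod_mul, Nat.mod_mul, e5, e4]
        rw [if_pos (show w 0 % (s * N) = w 1 % (s * N) ∧ w 0 % (s * N) = w 2 % (s * N) from
          ⟨key 1 (fun i => (hall i).1), key 2 (fun i => (hall i).2)⟩)]
        linarith [i1 (w 0 % s = w 1 % s), i1 (w 0 % s = w 2 % s), i1 (w 1 % s = w 2 % s)]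
      · rw [if_neg hall]
        have a4 := mul_nonneg hM0.le
          (i1 (w 0 % (s * N) = w 1 % (s * N) ∧ w 0 % (s * N) = w 2 % (s * N)))
        by_cases c1 : w 0 % s = w 1 % s
        · rw [if_pos c1]
          linarith [i1 (w 0 % s = w 2 % s), i1 (w 1 % s = w 2 % s)]
        by_cases c2 : w 0 % s = w 2 % s
        · rw [if_pos c2]
          linarith [i1 (w 0 % s = w 1 % s), i1 (w 1 % s = w 2 % s)]
        by_cases c3 : w 1 % s = w 2 % s
        · rw [if_pos c3]
          linarith [i1 (w 0 % s = w 1 % s), i1 (w 0 % s = w 2 % s)]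
        exact absurd (inj3 (fun h => c1 (congrArg Fin.val h)) (fun h => c2 (congrArg Fin.val h))
          (fun h => c3 (congrArg Fin.val h))) hc
  have hn0 : 0 < n := by
    have := Nat.mul_pos hs hN
    omega
  have hn0' : (0 : ℝ) < n := by exact_mod_cast hn0
  have hcnt : ∀ (P : (Fin 3 → ℕ) → Prop) [DecidablePred P],
      ∑ w ∈ W, (if P w then (1 : ℝ) else 0) ≤ ((W0.filter P).card : ℝ) := by
    intro P _
    rw [sum_boole]
    exact Nat.cast_le.2 (card_le_card (filter_subset_filter _ (filter_subset _ _)))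
  have hpair : ∀ i j l : Fin 3, (∀ k, k = i ∨ k = j ∨ k = l) →
      ∑ w ∈ W, (if w i % s = w j % s then (1 : ℝ) else 0) ≤ 16 * (n : ℝ) ^ 3 / s := by
    intro i j l hijl
    refine le_trans (hcnt _) (le_trans (Nat.cast_le.2 (card_pair_mod (2 * n) s i j l hijl)) ?_)
    have := div_add_one_le (2 * n) s hs (le_trans (Nat.le_mul_of_pos_right _ hN) hsn)
    rw [Nat.cast_mul, Nat.cast_mul]
    calc _ ≤ ((2 * n : ℕ) : ℝ) * ((2 * n : ℕ) : ℝ) * (2 * ((2 * n : ℕ) : ℝ) / s) := by gcongr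
      _ = _ := by push_cast; ring
  have htri : (M : ℝ) * ∑ w ∈ W, (if w 0 % (s * N) = w 1 % (s * N) ∧
      w 0 % (s * N) = w 2 % (s * N) then (1 : ℝ) else 0) ≤ 32 * (n : ℝ) ^ 3 / s := by
    have a1 := le_trans (hcnt _) (Nat.cast_le.2 (card_triple_mod (2 * n) (s * N)))
    have a2 := div_add_one_le (2 * n) (s * N) (Nat.mul_pos hs hN) hsn
    rw [Nat.cast_mul, Nat.cast_mul] at a1
    have a3 : (M : ℝ) ≤ (N : ℝ) ^ 2 := by exact_mod_cast hMN
    have a4 : (1 : ℝ) ≤ s := by exact_mod_cast hs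
    calc _ ≤ (N : ℝ) ^ 2 * (((2 * n : ℕ) : ℝ) * (2 * ((2 * n : ℕ) : ℝ) / (s * N : ℕ)) *
            (2 * ((2 * n : ℕ) : ℝ) / (s * N : ℕ))) := by
          apply mul_le_mul a3 (le_trans a1 _) (sum_nonneg fun w _ => by split_ifs <;> norm_num)
            (by positivity)
          gcongr
      _ = 32 * (n : ℝ) ^ 3 / s / s := by push_cast; field_simp; ring
      _ ≤ _ := div_le_self (by positivity) a4
  have htot : ∑ w ∈ W, ((Ωs.filter fun ω => bad ω w).card : ℝ) ≤ Λ * (80 * (n : ℝ) ^ 3 / s) := by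
    refine le_trans (sum_le_sum hper) ?_
    rw [← mul_sum]
    apply mul_le_mul_of_nonneg_left _ hΛ0
    rw [sum_add_distrib, sum_add_distrib, sum_add_distrib, ← mul_sum]
    have b1 := hpair 0 1 2 (by decide)
    have b2 := hpair 0 2 1 (by decide)
    have b3 := hpair 1 2 0 (by decide)
    have : 80 * (n : ℝ) ^ 3 / s = 16 * (n : ℝ) ^ 3 / s + 16 * (n : ℝ) ^ 3 / s +
      16 * (n : ℝ) ^ 3 / s + 32 * (n : ℝ) ^ 3 / s := by ring
    linarith
  have hΩ : (M : ℝ) ^ 8 * (q : ℝ) ^ 11 / 16 ≤ Ωs.card := by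
    have a1 := card_SLs_ge (F := ZMod M)
    have a2 := card_SLs_ge (F := ZMod q)
    rw [ZMod.card] at a1 a2
    have a3 : (M : ℝ) ^ 8 ≤ 4 * (SLs (ZMod M)).card := by exact_mod_cast a1
    have a4 : (q : ℝ) ^ 8 ≤ 4 * (SLs (ZMod q)).card := by exact_mod_cast a2
    simp only [Ωs, card_product, card_univ, Fintype.card_pi, ZMod.card, prod_const,
      Fintype.card_fin]
    push_cast
    generalize ((SLs (ZMod M)).card : ℝ) = c1 at a3 ⊢
    generalize ((SLs (ZMod q)).card : ℝ) = c2 at a4 ⊢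
    have a5 : 0 ≤ 4 * c1 := le_trans (by positivity) a3
    calc (M : ℝ) ^ 8 * (q : ℝ) ^ 11 / 16 = (M : ℝ) ^ 8 * ((q : ℝ) ^ 8 * (q : ℝ) ^ 3) / 16 := by ring
      _ ≤ (4 * c1) * ((4 * c2) * (q : ℝ) ^ 3) / 16 := by gcongr
      _ = _ := by ring
  have hswap : ∑ ω ∈ Ωs, ((W.filter fun w => bad ω w).card : ℝ) =
      ∑ w ∈ W, ((Ωs.filter fun ω => bad ω w).card : ℝ) := by
    simp only [card_filter]
    push_cast
    exact sum_comm
  have hne : Ωs.Nonempty := by
    rw [← card_pos]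
    have : (0 : ℝ) < Ωs.card := lt_of_lt_of_le (by positivity) hΩ
    exact_mod_cast this
  obtain ⟨ω, -, hω⟩ : ∃ ω ∈ Ωs, ((W.filter fun w => bad ω w).card : ℝ) ≤ n := by
    apply exists_le_of_sum_le hne
    rw [hswap, sum_const, nsmul_eq_mul]
    refine le_trans htot (le_trans ?_ (mul_le_mul_of_nonneg_right hΩ hn0'.le))
    rw [hΛ]
    push_cast
    set L : ℝ := (Nat.log 2 (8 * (2 * (M * q)) ^ 2) + 1)
    calc (q : ℝ) ^ 2 * (Cst * (2 * (M * q)) ^ 6 * L) * (80 * (n : ℝ) ^ 3 / s)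
        = (81920 * Cst * L * (n : ℝ) ^ 2) * ((M : ℝ) ^ 6 * (q : ℝ) ^ 8 * n / (16 * s)) := by
          field_simp; ring
      _ ≤ (s * (M : ℝ) ^ 2 * (q : ℝ) ^ 3) * ((M : ℝ) ^ 6 * (q : ℝ) ^ 8 * n / (16 * s)) := by gcongr
      _ = _ := by field_simp
  have hω' : (W.filter fun w => bad ω w).card ≤ n := by exact_mod_cast hω
  refine ⟨v ω, range (2 * n) \ (W.filter fun w => bad ω w).image (fun w => w 0), ?_, hv1 ω, ?_⟩
  · have a1 := le_card_sdiff ((W.filter fun w => bad ω w).image (fun w => w 0)) (range (2 * n))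
    have a2 : ((W.filter fun w => bad ω w).image (fun w => w 0)).card ≤ n :=
      le_trans card_image_le hω'
    rw [card_range] at a1
    omega
  · intro i hi j hj l hl hij hil hjl
    rw [mem_sdiff] at hi hj hl
    by_contra hc
    apply hi.2
    refine mem_image.2 ⟨![i, j, l], mem_filter.2 ⟨mem_filter.2 ⟨?_, ?_⟩, ?_⟩, rfl⟩
    · rw [Fintype.mem_piFinset, forall3]
      exact ⟨hi.1, hj.1, hl.1⟩
    · exact inj3 hij hil hjl
    · have : d3 (fun r => v ω (![i, j, l] r) 0) (fun r => v ω (![i, j, l] r) 1)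
          (fun r => v ω (![i, j, l] r) 2) = d3 (v ω i) (v ω j) (v ω l) := by
        simp only [d3, Matrix.cons_val_zero, Matrix.cons_val_one, Matrix.cons_val_two,
          Matrix.head_cons, Matrix.tail_cons]
        ring
      show 4 * X * |_| < _
      rw [this]
      exact not_le.1 hc

end Crest.Agent.R32
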